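import Mathlib

/-!
# P249, final arithmetic

Choice of `ε = (D - 1)/(D + 1)` and of the target dimension
`d = ⌈8 S log(2 n² + 1) / ε²⌉` with `d ≤ C n (log n)^(q+2)` whenever the total sensitivity `S`
is at most `const * n * (log n)^(q+1)`.
-/

namespace Vale.Agent.Lib.P249.H96Arith

theorem half_lt_log_two : (1 : ℝ) / 2 < Real.log 2 := by
  have := Real.log_two_gt_d9
  linarith

theorem log_two_le_log {n : ℕ} (hn : 2 ≤ n) : Real.log 2 ≤ Real.log n :=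
  Real.log_le_log (by norm_num) (by exact_mod_cast hn)

theorem natlog_le {n : ℕ} (hn : 2 ≤ n) : (Nat.log 2 n : ℝ) ≤ 2 * Real.log n := by
  have h1 : (2 : ℝ) ^ (Nat.log 2 n) ≤ n := by
    exact_mod_cast Nat.pow_log_le_self 2 (by omega : n ≠ 0)
  have h2 : (Nat.log 2 n : ℝ) * Real.log 2 ≤ Real.log n := by
    have := Real.log_le_log (by positivity) h1
    rwa [Real.log_pow] at this
  have h3 := half_lt_log_two
  have h4 : (0 : ℝ) ≤ Nat.log 2 n := Nat.cast_nonneg _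
  nlinarith [mul_nonneg h4 (by linarith : (0 : ℝ) ≤ Real.log 2 - 1 / 2)]

theorem two_natlog_add_two_le {n : ℕ} (hn : 2 ≤ n) :
    2 * (Nat.log 2 n : ℝ) + 2 ≤ 8 * Real.log n := by
  have h1 := natlog_le hn
  have h2 := log_two_le_log hn
  have h3 := half_lt_log_two
  linarith

theorem one_add_log_le {n : ℕ} (hn : 2 ≤ n) : 1 + Real.log n ≤ 3 * Real.log n := by
  have h2 := log_two_le_log hn
  have h3 := half_lt_log_two
  linarith

theorem log_card_le {n : ℕ} (hn : 2 ≤ n) :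
    Real.log (2 * ((n : ℝ) * n) + 1) ≤ 4 * Real.log n := by
  have hn' : (2 : ℝ) ≤ n := by exact_mod_cast hn
  have hsq : (4 : ℝ) ≤ (n : ℝ) * n := by nlinarith
  have h1 : 2 * ((n : ℝ) * n) + 1 ≤ (n : ℝ) ^ 4 := by
    have : (n : ℝ) ^ 4 = ((n : ℝ) * n) * ((n : ℝ) * n) := by ring
    rw [this]
    nlinarith
  calc Real.log (2 * ((n : ℝ) * n) + 1) ≤ Real.log ((n : ℝ) ^ 4) :=
        Real.log_le_log (by positivity) h1
    _ = 4 * Real.log n := by rw [Real.log_pow]; norm_num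

/-- Generic final arithmetic: any sensitivity bound `S ≤ B n (log n)^(q+1)` gives a target
dimension `d ≤ C n (log n)^(q+2)` satisfying the hypothesis of the sampling lemma, with
`ε = (D-1)/(D+1)`, for which `((1+ε)/(1-ε))^(1/q) ≤ D`. -/
theorem final_arith_gen (q D B : ℝ) (hq : 1 ≤ q) (hD : 1 < D) (hB : 0 ≤ B) :
    ∃ (ε C : ℝ), 0 < ε ∧ ε < 1 ∧ ((1 + ε) / (1 - ε)) ^ (1 / q) ≤ D ∧
      ∀ (n : ℕ), 2 ≤ n → ∀ S : ℝ, 0 ≤ S →
        S ≤ B * n * Real.log n ^ (q + 1) →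
        ∃ d : ℕ, 8 * S * Real.log (2 * ((n : ℝ) * n) + 1) ≤ ε ^ 2 * d ∧
          (d : ℝ) ≤ C * n * Real.log n ^ (q + 2) := by
  have hD1 : 0 < D + 1 := by linarith
  have hεpos : 0 < (D - 1) / (D + 1) := div_pos (by linarith) hD1
  refine ⟨(D - 1) / (D + 1),
    32 * B / ((D - 1) / (D + 1)) ^ 2 + 1 / Real.log 2 ^ (q + 2), hεpos, ?_, ?_, ?_⟩
  · rw [div_lt_one hD1]; linarith
  · have h : (1 + (D - 1) / (D + 1)) / (1 - (D - 1) / (D + 1)) = D := by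
      field_simp
      ring
    rw [h]
    calc D ^ (1 / q) ≤ D ^ (1 : ℝ) :=
          Real.rpow_le_rpow_of_exponent_le hD.le (by rw [div_le_one (by linarith)]; exact hq)
      _ = D := Real.rpow_one D
  · intro n hn S hS0 hS
    set ε : ℝ := (D - 1) / (D + 1) with hε
    set L : ℝ := Real.log n with hL
    have hL2 : Real.log 2 ≤ L := log_two_le_log hn
    have hlog2 : (1 : ℝ) / 2 < Real.log 2 := half_lt_log_two
    have hl2pos : 0 < Real.log 2 := by linarith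
    have hLpos : 0 < L := by linarith
    have hn1 : (1 : ℝ) ≤ n := by exact_mod_cast (by omega : 1 ≤ n)
    have hnpos : (0 : ℝ) < n := by linarith
    have hcard : Real.log (2 * ((n : ℝ) * n) + 1) ≤ 4 * L := log_card_le hn
    have hcard0 : 0 ≤ Real.log (2 * ((n : ℝ) * n) + 1) :=
      Real.log_nonneg (by nlinarith)
    have hε2 : 0 < ε ^ 2 := by positivity
    refine ⟨⌈8 * S * Real.log (2 * ((n : ℝ) * n) + 1) / ε ^ 2⌉₊, ?_, ?_⟩
    · have h := Nat.le_ceil (8 * S * Real.log (2 * ((n : ℝ) * n) + 1) / ε ^ 2)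
      rw [div_le_iff₀ hε2] at h
      linarith
    · have h0 : 0 ≤ 8 * S * Real.log (2 * ((n : ℝ) * n) + 1) / ε ^ 2 := by positivity
      have h1 := (Nat.ceil_lt_add_one h0).le
      have hpow : L ^ (q + 2) = L ^ (q + 1) * L := by
        rw [show q + 2 = (q + 1) + 1 by ring, Real.rpow_add_one hLpos.ne']
      have hLq : 0 ≤ L ^ (q + 1) := Real.rpow_nonneg hLpos.le _
      have hLq2 : 0 ≤ L ^ (q + 2) := Real.rpow_nonneg hLpos.le _
      have h2 : 8 * S * Real.log (2 * ((n : ℝ) * n) + 1) / ε ^ 2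
          ≤ 32 * B / ε ^ 2 * n * L ^ (q + 2) := by
        rw [div_le_iff₀ hε2]
        have e : 32 * B / ε ^ 2 * n * L ^ (q + 2) * ε ^ 2
            = 8 * (B * n * L ^ (q + 1)) * (4 * L) := by
          rw [hpow]
          field_simp
          ring
        rw [e]
        exact mul_le_mul (by linarith) hcard hcard0 (by positivity)
      have h3 : (1 : ℝ) ≤ 1 / Real.log 2 ^ (q + 2) * n * L ^ (q + 2) := by
        have hp : Real.log 2 ^ (q + 2) ≤ L ^ (q + 2) :=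
          Real.rpow_le_rpow hl2pos.le hL2 (by linarith)
        have hp0 : 0 < Real.log 2 ^ (q + 2) := Real.rpow_pos_of_pos hl2pos _
        rw [one_div, inv_mul_eq_div, div_mul_eq_mul_div, le_div_iff₀ hp0]
        nlinarith
      calc ((⌈8 * S * Real.log (2 * ((n : ℝ) * n) + 1) / ε ^ 2⌉₊ : ℕ) : ℝ)
          ≤ 8 * S * Real.log (2 * ((n : ℝ) * n) + 1) / ε ^ 2 + 1 := h1
        _ ≤ 32 * B / ε ^ 2 * n * L ^ (q + 2)
            + 1 / Real.log 2 ^ (q + 2) * n * L ^ (q + 2) := by linarith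
        _ = (32 * B / ε ^ 2 + 1 / Real.log 2 ^ (q + 2)) * n * L ^ (q + 2) := by ring

/-- Conversion of the sensitivity bound of step (A), with a factor `H ≤ 1 + log n`
(e.g. a harmonic sum), into the generic shape. -/
theorem sens_bound_convert (q : ℝ) (hq : 1 ≤ q) {n : ℕ} (hn : 2 ≤ n) (S H : ℝ)
    (hH0 : 0 ≤ H) (hH : H ≤ 1 + Real.log n)
    (hS : S ≤ 2 ^ (1 + q) * (2 * (Nat.log 2 n : ℝ) + 2) ^ q * n * H) :
    S ≤ (3 * 2 ^ (1 + q) * 8 ^ q) * n * Real.log n ^ (q + 1) := by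
  set L : ℝ := Real.log n with hL
  have hL2 : Real.log 2 ≤ L := log_two_le_log hn
  have hlog2 : (1 : ℝ) / 2 < Real.log 2 := half_lt_log_two
  have hLpos : 0 < L := by linarith
  have hM0 : (0 : ℝ) ≤ 2 * (Nat.log 2 n : ℝ) + 2 := by positivity
  have h1 : (2 * (Nat.log 2 n : ℝ) + 2) ^ q ≤ 8 ^ q * L ^ q := by
    rw [← Real.mul_rpow (by norm_num) hLpos.le]
    exact Real.rpow_le_rpow hM0 (two_natlog_add_two_le hn) (by linarith)
  have h2 : H ≤ 3 * L := le_trans hH (one_add_log_le hn)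
  have hpow : L ^ (q + 1) = L ^ q * L := Real.rpow_add_one hLpos.ne' q
  have h2q : (0 : ℝ) ≤ 2 ^ (1 + q) := Real.rpow_nonneg (by norm_num) _
  have h8q : (0 : ℝ) ≤ 8 ^ q := Real.rpow_nonneg (by norm_num) _
  have hLq : 0 ≤ L ^ q := Real.rpow_nonneg hLpos.le _
  have hMq : 0 ≤ (2 * (Nat.log 2 n : ℝ) + 2) ^ q := Real.rpow_nonneg hM0 _
  have hn0 : (0 : ℝ) ≤ n := Nat.cast_nonneg n
  calc S ≤ 2 ^ (1 + q) * (2 * (Nat.log 2 n : ℝ) + 2) ^ q * n * H := hS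
    _ ≤ 2 ^ (1 + q) * (8 ^ q * L ^ q) * n * (3 * L) := by
        apply mul_le_mul _ h2 hH0 (by positivity)
        apply mul_le_mul_of_nonneg_right _ hn0
        exact mul_le_mul_of_nonneg_left h1 h2q
    _ = (3 * 2 ^ (1 + q) * 8 ^ q) * n * L ^ (q + 1) := by rw [hpow]; ring

/-- Final arithmetic in the shape announced for the assembly (helper52's signature). -/
theorem final_arith (q D : ℝ) (hq : 1 ≤ q) (hD : 1 < D) :
    ∃ (ε C : ℝ), 0 < ε ∧ ε < 1 ∧ ((1 + ε) / (1 - ε)) ^ (1 / q) ≤ D ∧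
      ∀ (n : ℕ), 2 ≤ n → ∀ S : ℝ, 0 ≤ S →
        S ≤ 2 ^ (1 + q) * (2 * (Nat.log 2 n : ℝ) + 2) ^ q * n * (1 + Real.log n) →
        ∃ d : ℕ, 8 * S * Real.log (2 * ((n : ℝ) * n) + 1) ≤ ε ^ 2 * d ∧
          (d : ℝ) ≤ C * n * Real.log n ^ (q + 2) := by
  have hB : (0 : ℝ) ≤ 3 * 2 ^ (1 + q) * 8 ^ q := by
    have h2q : (0 : ℝ) ≤ 2 ^ (1 + q) := Real.rpow_nonneg (by norm_num) _
    have h8q : (0 : ℝ) ≤ 8 ^ q := Real.rpow_nonneg (by norm_num) _
    positivity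
  obtain ⟨ε, C, h1, h2, h3, h4⟩ := final_arith_gen q D (3 * 2 ^ (1 + q) * 8 ^ q) hq hD hB
  refine ⟨ε, C, h1, h2, h3, fun n hn S hS0 hS => h4 n hn S hS0 ?_⟩
  have hL : 0 ≤ 1 + Real.log n := by
    have := log_two_le_log hn
    have := half_lt_log_two
    linarith
  exact sens_bound_convert q hq hn S (1 + Real.log n) hL le_rfl hS

/-- The same with a harmonic factor `∑_{i<n} 1/(i+1)` in place of `1 + log n`. -/
theorem final_arith_harmonic (q D : ℝ) (hq : 1 ≤ q) (hD : 1 < D) :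
    ∃ (ε C : ℝ), 0 < ε ∧ ε < 1 ∧ ((1 + ε) / (1 - ε)) ^ (1 / q) ≤ D ∧
      ∀ (n : ℕ), 2 ≤ n → ∀ S : ℝ, 0 ≤ S →
        S ≤ 2 ^ (1 + q) * (2 * (Nat.log 2 n : ℝ) + 2) ^ q * n
            * ∑ i ∈ Finset.range n, 1 / ((i : ℝ) + 1) →
        ∃ d : ℕ, 8 * S * Real.log (2 * ((n : ℝ) * n) + 1) ≤ ε ^ 2 * d ∧
          (d : ℝ) ≤ C * n * Real.log n ^ (q + 2) := by
  have hB : (0 : ℝ) ≤ 3 * 2 ^ (1 + q) * 8 ^ q := by
    have h2q : (0 : ℝ) ≤ 2 ^ (1 + q) := Real.rpow_nonneg (by norm_num) _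
    have h8q : (0 : ℝ) ≤ 8 ^ q := Real.rpow_nonneg (by norm_num) _
    positivity
  obtain ⟨ε, C, h1, h2, h3, h4⟩ := final_arith_gen q D (3 * 2 ^ (1 + q) * 8 ^ q) hq hD hB
  refine ⟨ε, C, h1, h2, h3, fun n hn S hS0 hS => h4 n hn S hS0 ?_⟩
  have hH0 : 0 ≤ ∑ i ∈ Finset.range n, 1 / ((i : ℝ) + 1) :=
    Finset.sum_nonneg (fun i _ => by positivity)
  have hH : ∑ i ∈ Finset.range n, 1 / ((i : ℝ) + 1) ≤ 1 + Real.log n := by
    have h := harmonic_le_one_add_log n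
    have e : ((harmonic n : ℚ) : ℝ) = ∑ i ∈ Finset.range n, 1 / ((i : ℝ) + 1) := by
      simp [harmonic]
    rw [e] at h
    exact h
  exact sens_bound_convert q hq hn S _ hH0 hH hS

end Vale.Agent.Lib.P249.H96Arith
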