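import Mathlib

/-!
# P249, final arithmetic with a general exponent

`final_arith_exp`: any bound `S ≤ B n (log n)^r` (`r ≥ 0`) on the total sensitivity gives a target
dimension `d ≤ C n (log n)^(r+1)` satisfying the hypothesis of the sampling lemma, with
`ε = (D-1)/(D+1)`, for which `((1+ε)/(1-ε))^(1/q) ≤ D`.

`final_arith_hops`: the same for a bound `S ≤ A n t^(q-1)` where the hop number `t` satisfies
`0 ≤ t ≤ c log n` (e.g. `t = 2 ⌈log₂ n⌉ - 1` or `2 ⌈log₂ n⌉ + 1`); the dimension is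
`≤ C n (log n)^q`.

Self-contained (Mathlib only).
-/

namespace Vale.Agent.Lib.P249.Exp

theorem half_lt_log_two : (1 : ℝ) / 2 < Real.log 2 := by
  have := Real.log_two_gt_d9
  linarith

theorem log_two_le_log {n : ℕ} (hn : 2 ≤ n) : Real.log 2 ≤ Real.log n :=
  Real.log_le_log (by norm_num) (by exact_mod_cast hn)

theorem natlog_le {n : ℕ} (hn : 2 ≤ n) : (Nat.log 2 n : ℝ) ≤ 2 * Real.log n := by
  have h1 : (2 : ℝ) ^ (Nat.log 2 n) ≤ n := by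
    exact_mod_cast Nat.pow_log_le_self 2 (by omega : n ≠ 0)
  have h2 : (Nat.log 2 n : ℝ) * Real.log 2 ≤ Real.log n := by
    have := Real.log_le_log (by positivity) h1
    rwa [Real.log_pow] at this
  have h3 := half_lt_log_two
  have h4 : (0 : ℝ) ≤ Nat.log 2 n := Nat.cast_nonneg _
  nlinarith [mul_nonneg h4 (by linarith : (0 : ℝ) ≤ Real.log 2 - 1 / 2)]

/-- `⌈log₂ n⌉ ≤ 4 log n` for `n ≥ 2`. -/
theorem natclog_le {n : ℕ} (hn : 2 ≤ n) : (Nat.clog 2 n : ℝ) ≤ 4 * Real.log n := by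
  have h0 : Nat.clog 2 n ≤ Nat.log 2 n + 1 := by
    apply Nat.clog_le_of_le_pow
    exact (Nat.lt_pow_succ_log_self (by norm_num : 1 < 2) n).le
  have h1 : (Nat.clog 2 n : ℝ) ≤ (Nat.log 2 n : ℝ) + 1 := by exact_mod_cast h0
  have h2 := natlog_le hn
  have h3 := log_two_le_log hn
  have h4 := half_lt_log_two
  linarith

/-- `2 ⌈log₂ n⌉ - 1 ≤ 8 log n` for `n ≥ 2`. -/
theorem two_natclog_sub_one_le {n : ℕ} (hn : 2 ≤ n) :
    2 * (Nat.clog 2 n : ℝ) - 1 ≤ 8 * Real.log n := by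
  have h1 := natclog_le hn
  linarith

/-- `2 ⌈log₂ n⌉ + 1 ≤ 10 log n` for `n ≥ 2`. -/
theorem two_natclog_add_one_le {n : ℕ} (hn : 2 ≤ n) :
    2 * (Nat.clog 2 n : ℝ) + 1 ≤ 10 * Real.log n := by
  have h1 := natclog_le hn
  have h3 := log_two_le_log hn
  have h4 := half_lt_log_two
  linarith

theorem log_card_le {n : ℕ} (hn : 2 ≤ n) :
    Real.log (2 * ((n : ℝ) * n) + 1) ≤ 4 * Real.log n := by
  have hn' : (2 : ℝ) ≤ n := by exact_mod_cast hn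
  have hsq : (4 : ℝ) ≤ (n : ℝ) * n := by nlinarith
  have h1 : 2 * ((n : ℝ) * n) + 1 ≤ (n : ℝ) ^ 4 := by
    have : (n : ℝ) ^ 4 = ((n : ℝ) * n) * ((n : ℝ) * n) := by ring
    rw [this]
    nlinarith
  calc Real.log (2 * ((n : ℝ) * n) + 1) ≤ Real.log ((n : ℝ) ^ 4) :=
        Real.log_le_log (by positivity) h1
    _ = 4 * Real.log n := by rw [Real.log_pow]; norm_num

/-- Generic final arithmetic with a general exponent `r ≥ 0`: a sensitivity bound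
`S ≤ B n (log n)^r` gives a target dimension `d ≤ C n (log n)^(r+1)` satisfying the hypothesis of
the sampling lemma, with `ε = (D-1)/(D+1)`, for which `((1+ε)/(1-ε))^(1/q) ≤ D`. -/
theorem final_arith_exp (q D B r : ℝ) (hq : 1 ≤ q) (hD : 1 < D) (hB : 0 ≤ B) (hr : 0 ≤ r) :
    ∃ (ε C : ℝ), 0 < ε ∧ ε < 1 ∧ ((1 + ε) / (1 - ε)) ^ (1 / q) ≤ D ∧
      ∀ (n : ℕ), 2 ≤ n → ∀ S : ℝ, 0 ≤ S →
        S ≤ B * n * Real.log n ^ r →
        ∃ d : ℕ, 8 * S * Real.log (2 * ((n : ℝ) * n) + 1) ≤ ε ^ 2 * d ∧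
          (d : ℝ) ≤ C * n * Real.log n ^ (r + 1) := by
  have hD1 : 0 < D + 1 := by linarith
  have hεpos : 0 < (D - 1) / (D + 1) := div_pos (by linarith) hD1
  refine ⟨(D - 1) / (D + 1),
    32 * B / ((D - 1) / (D + 1)) ^ 2 + 1 / Real.log 2 ^ (r + 1), hεpos, ?_, ?_, ?_⟩
  · rw [div_lt_one hD1]; linarith
  · have h : (1 + (D - 1) / (D + 1)) / (1 - (D - 1) / (D + 1)) = D := by
      field_simp
      ring
    rw [h]
    calc D ^ (1 / q) ≤ D ^ (1 : ℝ) :=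
          Real.rpow_le_rpow_of_exponent_le hD.le (by rw [div_le_one (by linarith)]; exact hq)
      _ = D := Real.rpow_one D
  · intro n hn S hS0 hS
    set ε : ℝ := (D - 1) / (D + 1) with hε
    set L : ℝ := Real.log n with hL
    have hL2 : Real.log 2 ≤ L := log_two_le_log hn
    have hlog2 : (1 : ℝ) / 2 < Real.log 2 := half_lt_log_two
    have hl2pos : 0 < Real.log 2 := by linarith
    have hLpos : 0 < L := by linarith
    have hn1 : (1 : ℝ) ≤ n := by exact_mod_cast (by omega : 1 ≤ n)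
    have hnpos : (0 : ℝ) < n := by linarith
    have hcard : Real.log (2 * ((n : ℝ) * n) + 1) ≤ 4 * L := log_card_le hn
    have hcard0 : 0 ≤ Real.log (2 * ((n : ℝ) * n) + 1) :=
      Real.log_nonneg (by nlinarith)
    have hε2 : 0 < ε ^ 2 := by positivity
    refine ⟨⌈8 * S * Real.log (2 * ((n : ℝ) * n) + 1) / ε ^ 2⌉₊, ?_, ?_⟩
    · have h := Nat.le_ceil (8 * S * Real.log (2 * ((n : ℝ) * n) + 1) / ε ^ 2)
      rw [div_le_iff₀ hε2] at h
      linarith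
    · have h0 : 0 ≤ 8 * S * Real.log (2 * ((n : ℝ) * n) + 1) / ε ^ 2 := by positivity
      have h1 := (Nat.ceil_lt_add_one h0).le
      have hpow : L ^ (r + 1) = L ^ r * L := Real.rpow_add_one hLpos.ne' r
      have hLq : 0 ≤ L ^ r := Real.rpow_nonneg hLpos.le _
      have hLq2 : 0 ≤ L ^ (r + 1) := Real.rpow_nonneg hLpos.le _
      have h2 : 8 * S * Real.log (2 * ((n : ℝ) * n) + 1) / ε ^ 2
          ≤ 32 * B / ε ^ 2 * n * L ^ (r + 1) := by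
        rw [div_le_iff₀ hε2]
        have e : 32 * B / ε ^ 2 * n * L ^ (r + 1) * ε ^ 2
            = 8 * (B * n * L ^ r) * (4 * L) := by
          rw [hpow]
          field_simp
          ring
        rw [e]
        exact mul_le_mul (by linarith) hcard hcard0 (by positivity)
      have h3 : (1 : ℝ) ≤ 1 / Real.log 2 ^ (r + 1) * n * L ^ (r + 1) := by
        have hp : Real.log 2 ^ (r + 1) ≤ L ^ (r + 1) :=
          Real.rpow_le_rpow hl2pos.le hL2 (by linarith)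
        have hp0 : 0 < Real.log 2 ^ (r + 1) := Real.rpow_pos_of_pos hl2pos _
        rw [one_div, inv_mul_eq_div, div_mul_eq_mul_div, le_div_iff₀ hp0]
        nlinarith
      calc ((⌈8 * S * Real.log (2 * ((n : ℝ) * n) + 1) / ε ^ 2⌉₊ : ℕ) : ℝ)
          ≤ 8 * S * Real.log (2 * ((n : ℝ) * n) + 1) / ε ^ 2 + 1 := h1
        _ ≤ 32 * B / ε ^ 2 * n * L ^ (r + 1)
            + 1 / Real.log 2 ^ (r + 1) * n * L ^ (r + 1) := by linarith
        _ = (32 * B / ε ^ 2 + 1 / Real.log 2 ^ (r + 1)) * n * L ^ (r + 1) := by ring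

/-- Conversion: a bound `S ≤ A n t^(q-1)` with hop number `0 ≤ t ≤ c log n` gives
`S ≤ (A c^(q-1)) n (log n)^(q-1)`. -/
theorem hops_bound_convert (q A c : ℝ) (hq : 1 ≤ q) (hA : 0 ≤ A) {n : ℕ} (hn : 2 ≤ n)
    (S t : ℝ) (ht0 : 0 ≤ t) (ht : t ≤ c * Real.log n)
    (hS : S ≤ A * n * t ^ (q - 1)) :
    S ≤ (A * c ^ (q - 1)) * n * Real.log n ^ (q - 1) := by
  set L : ℝ := Real.log n with hL
  have hL2 : Real.log 2 ≤ L := log_two_le_log hn
  have hlog2 : (1 : ℝ) / 2 < Real.log 2 := half_lt_log_two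
  have hLpos : 0 < L := by linarith
  have hc0 : 0 ≤ c := by
    by_contra hc
    rw [not_le] at hc
    nlinarith
  have h1 : t ^ (q - 1) ≤ c ^ (q - 1) * L ^ (q - 1) := by
    rw [← Real.mul_rpow hc0 hLpos.le]
    exact Real.rpow_le_rpow ht0 ht (by linarith)
  have hn0 : (0 : ℝ) ≤ n := Nat.cast_nonneg n
  calc S ≤ A * n * t ^ (q - 1) := hS
    _ ≤ A * n * (c ^ (q - 1) * L ^ (q - 1)) :=
        mul_le_mul_of_nonneg_left h1 (by positivity)
    _ = (A * c ^ (q - 1)) * n * L ^ (q - 1) := by ring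

/-- Final arithmetic for a hop-count sensitivity bound: if `S ≤ A n t^(q-1)` for a hop number
`0 ≤ t ≤ c log n`, the sampling dimension is at most `C n (log n)^q`. -/
theorem final_arith_hops (q D A c : ℝ) (hq : 1 ≤ q) (hD : 1 < D) (hA : 0 ≤ A) (hc : 0 ≤ c) :
    ∃ (ε C : ℝ), 0 < ε ∧ ε < 1 ∧ ((1 + ε) / (1 - ε)) ^ (1 / q) ≤ D ∧
      ∀ (n : ℕ), 2 ≤ n → ∀ S t : ℝ, 0 ≤ S → 0 ≤ t → t ≤ c * Real.log n →
        S ≤ A * n * t ^ (q - 1) →
        ∃ d : ℕ, 8 * S * Real.log (2 * ((n : ℝ) * n) + 1) ≤ ε ^ 2 * d ∧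
          (d : ℝ) ≤ C * n * Real.log n ^ q := by
  have hB : 0 ≤ A * c ^ (q - 1) := mul_nonneg hA (Real.rpow_nonneg hc _)
  obtain ⟨ε, C, h1, h2, h3, h4⟩ :=
    final_arith_exp q D (A * c ^ (q - 1)) (q - 1) hq hD hB (by linarith)
  refine ⟨ε, C, h1, h2, h3, fun n hn S t hS0 ht0 ht hS => ?_⟩
  have h5 := h4 n hn S hS0 (hops_bound_convert q A c hq hA hn S t ht0 ht hS)
  rwa [show q - 1 + 1 = q by ring] at h5

/-- Final arithmetic for the greedy-spanner bound `S ≤ 2 n (2 ⌈log₂ n⌉ - 1)^(q-1)`. -/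
theorem final_arith_spanner (q D : ℝ) (hq : 1 ≤ q) (hD : 1 < D) :
    ∃ (ε C : ℝ), 0 < ε ∧ ε < 1 ∧ ((1 + ε) / (1 - ε)) ^ (1 / q) ≤ D ∧
      ∀ (n : ℕ), 2 ≤ n → ∀ S : ℝ, 0 ≤ S →
        S ≤ 2 * n * (2 * (Nat.clog 2 n : ℝ) - 1) ^ (q - 1) →
        ∃ d : ℕ, 8 * S * Real.log (2 * ((n : ℝ) * n) + 1) ≤ ε ^ 2 * d ∧
          (d : ℝ) ≤ C * n * Real.log n ^ q := by
  obtain ⟨ε, C, h1, h2, h3, h4⟩ := final_arith_hops q D 2 8 hq hD (by norm_num) (by norm_num)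
  refine ⟨ε, C, h1, h2, h3, fun n hn S hS0 hS => ?_⟩
  have hK : 1 ≤ Nat.clog 2 n := Nat.clog_pos (by norm_num) hn
  have hK' : (1 : ℝ) ≤ (Nat.clog 2 n : ℝ) := by exact_mod_cast hK
  exact h4 n hn S (2 * (Nat.clog 2 n : ℝ) - 1) hS0 (by linarith)
    (two_natclog_sub_one_le hn) hS

/-- The same with `2 ⌈log₂ n⌉ + 1` hops. -/
theorem final_arith_spanner' (q D : ℝ) (hq : 1 ≤ q) (hD : 1 < D) :
    ∃ (ε C : ℝ), 0 < ε ∧ ε < 1 ∧ ((1 + ε) / (1 - ε)) ^ (1 / q) ≤ D ∧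
      ∀ (n : ℕ), 2 ≤ n → ∀ S : ℝ, 0 ≤ S →
        S ≤ 2 * n * (2 * (Nat.clog 2 n : ℝ) + 1) ^ (q - 1) →
        ∃ d : ℕ, 8 * S * Real.log (2 * ((n : ℝ) * n) + 1) ≤ ε ^ 2 * d ∧
          (d : ℝ) ≤ C * n * Real.log n ^ q := by
  obtain ⟨ε, C, h1, h2, h3, h4⟩ := final_arith_hops q D 2 10 hq hD (by norm_num) (by norm_num)
  refine ⟨ε, C, h1, h2, h3, fun n hn S hS0 hS => ?_⟩
  exact h4 n hn S (2 * (Nat.clog 2 n : ℝ) + 1) hS0 (by positivity)
    (two_natclog_add_one_le hn) hS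

end Vale.Agent.Lib.P249.Exp
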