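import Mathlib

/-!
# P249: the grid lower bound in headline form (helper96)

`exists_k_superlog`: for `q > 2` the quantity `(1/11) (2k/(3q^2))^(q/2)` eventually beats
`A * k * log (6k+1)` for every constant `A`.

`headline_of`: from the explicit grid lower bound (the statement of the grid hand-in, taken here
as a hypothesis) it follows that for `p > 2`, every `C`, `D` and every `N0` there is an `n`-point
subset of `l_p^m` with `n ≥ N0` that has no embedding of distortion at most `D` into `l_p^d`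
unless `d > C * log n`.
-/

namespace Vale.Agent.Lib.P249.H96

theorem exists_k_superlog (q : ℝ) (hq : 2 < q) (A : ℝ) (K0 : ℕ) :
    ∃ k : ℕ, 1 ≤ k ∧ K0 ≤ k ∧
      A * ((k : ℝ) * Real.log (6 * (k : ℝ) + 1))
        < (1 / 11 : ℝ) * (2 * k / (3 * q ^ 2)) ^ (q / 2) := by
  set δ : ℝ := q / 2 - 1 with hδ
  have hδpos : 0 < δ := by rw [hδ]; linarith
  set c0 : ℝ := (2 / (3 * q ^ 2)) ^ (q / 2) with hc0
  have hq0 : 0 < q := by linarith
  have hbase : 0 < 2 / (3 * q ^ 2) := by positivity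
  have hc0pos : 0 < c0 := Real.rpow_pos_of_pos hbase _
  set E : ℝ := Real.log 7 + 2 / δ with hE
  have hlog7 : 0 < Real.log 7 := Real.log_pos (by norm_num)
  have hEpos : 0 < E := by rw [hE]; positivity
  set B : ℝ := 11 * (|A| * E) / c0 with hB
  have hBnn : 0 ≤ B := by rw [hB]; positivity
  obtain ⟨k, hk⟩ := exists_nat_gt (max (max 1 (K0 : ℝ)) (B ^ (2 / δ)))
  have hk1 : (1 : ℝ) < k := lt_of_le_of_lt (le_trans (le_max_left _ _) (le_max_left _ _)) hk
  have hkK : (K0 : ℝ) < k := lt_of_le_of_lt (le_trans (le_max_right _ _) (le_max_left _ _)) hk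
  have hkB : B ^ (2 / δ) < k := lt_of_le_of_lt (le_max_right _ _) hk
  have hkpos : (0 : ℝ) < k := by linarith
  refine ⟨k, ?_, ?_, ?_⟩
  · exact_mod_cast hk1.le
  · exact_mod_cast hkK.le
  · set u : ℝ := (k : ℝ) ^ (δ / 2) with hu
    have hu1 : 1 ≤ u := by
      rw [hu]; exact Real.one_le_rpow hk1.le (by positivity)
    have huB : B < u := by
      have h1 : (B ^ (2 / δ)) ^ (δ / 2) < (k : ℝ) ^ (δ / 2) :=
        Real.rpow_lt_rpow (Real.rpow_nonneg hBnn _) hkB (by positivity)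
      have h2 : (B ^ (2 / δ)) ^ (δ / 2) = B := by
        rw [← Real.rpow_mul hBnn]
        have : 2 / δ * (δ / 2) = 1 := by field_simp
        rw [this, Real.rpow_one]
      rw [h2] at h1
      exact h1
    -- log bound
    have hlog : Real.log (6 * (k : ℝ) + 1) ≤ E * u := by
      have h1 : Real.log (6 * (k : ℝ) + 1) ≤ Real.log (7 * (k : ℝ)) :=
        Real.log_le_log (by positivity) (by linarith)
      have h2 : Real.log (7 * (k : ℝ)) = Real.log 7 + Real.log k :=
        Real.log_mul (by norm_num) hkpos.ne'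
      have h3 : Real.log (k : ℝ) ≤ (k : ℝ) ^ (δ / 2) / (δ / 2) :=
        Real.log_le_rpow_div hkpos.le (by positivity)
      have h4 : (k : ℝ) ^ (δ / 2) / (δ / 2) = 2 / δ * u := by
        rw [hu]; field_simp
      have h5 : Real.log 7 ≤ Real.log 7 * u := by nlinarith
      rw [hE]
      nlinarith
    -- the power
    have hpow : (2 * (k : ℝ) / (3 * q ^ 2)) ^ (q / 2) = c0 * ((k : ℝ) * u ^ 2) := by
      have h1 : 2 * (k : ℝ) / (3 * q ^ 2) = 2 / (3 * q ^ 2) * k := by ring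
      rw [h1, Real.mul_rpow hbase.le hkpos.le]
      have h2 : (k : ℝ) ^ (q / 2) = (k : ℝ) * u ^ 2 := by
        have h3 : q / 2 = 1 + (δ / 2 + δ / 2) := by rw [hδ]; ring
        rw [h3, Real.rpow_add hkpos, Real.rpow_add hkpos, Real.rpow_one, hu]
        ring
      rw [h2]
    rw [hpow]
    have hlognn : 0 ≤ Real.log (6 * (k : ℝ) + 1) := Real.log_nonneg (by linarith)
    have hupos : 0 < u := by linarith
    -- A * (k * log) ≤ |A| * k * (E u) < (1/11) c0 k u^2
    have hA : A * ((k : ℝ) * Real.log (6 * (k : ℝ) + 1))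
        ≤ |A| * ((k : ℝ) * (E * u)) := by
      have h1 : A * ((k : ℝ) * Real.log (6 * (k : ℝ) + 1))
          ≤ |A| * ((k : ℝ) * Real.log (6 * (k : ℝ) + 1)) :=
        mul_le_mul_of_nonneg_right (le_abs_self A) (by positivity)
      have h2 : |A| * ((k : ℝ) * Real.log (6 * (k : ℝ) + 1))
          ≤ |A| * ((k : ℝ) * (E * u)) := by
        apply mul_le_mul_of_nonneg_left _ (abs_nonneg A)
        exact mul_le_mul_of_nonneg_left hlog hkpos.le
      linarith
    have hB' : 11 * (|A| * E) < c0 * u := by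
      have : B * c0 = 11 * (|A| * E) := by rw [hB]; field_simp
      nlinarith
    have hfin : |A| * ((k : ℝ) * (E * u)) < 1 / 11 * (c0 * ((k : ℝ) * u ^ 2)) := by
      have h1 : 0 < (k : ℝ) * u := by positivity
      nlinarith
    linarith

theorem headline_of
    (hgrid : ∀ (p : ENNReal) [Fact (1 ≤ p)], p ≠ ⊤ → 2 ≤ p → ∀ k : ℕ, 1 ≤ k →
      ∃ (m : ℕ) (x : Fin ((6 * k + 1) ^ k) → PiLp p (fun _ : Fin m => ℝ)),
        Function.Injective x ∧
        ∀ (d : ℕ) (y : Fin ((6 * k + 1) ^ k) → PiLp p (fun _ : Fin d => ℝ)) (s D : ℝ), 0 < s →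
          (∀ i j, s * dist (x i) (x j) ≤ dist (y i) (y j) ∧
            dist (y i) (y j) ≤ D * s * dist (x i) (x j)) →
          (1 / 11 : ℝ) * (2 * k / (3 * p.toReal ^ 2)) ^ (p.toReal / 2) ≤ D ^ p.toReal * d)
    (p : ENNReal) [Fact (1 ≤ p)] (hp : p ≠ ⊤) (hp2 : 2 < p) (C D : ℝ) (N0 : ℕ) :
    ∃ (n m : ℕ) (x : Fin n → PiLp p (fun _ : Fin m => ℝ)),
      N0 ≤ n ∧ 2 ≤ n ∧ Function.Injective x ∧
      ∀ (d : ℕ) (y : Fin n → PiLp p (fun _ : Fin d => ℝ)) (s : ℝ), 0 < s →
        (∀ i j, s * dist (x i) (x j) ≤ dist (y i) (y j) ∧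
          dist (y i) (y j) ≤ D * s * dist (x i) (x j)) →
        C * Real.log n < d := by
  set q : ℝ := p.toReal with hq
  have hq2 : 2 < q := by
    rw [hq]
    have h := (ENNReal.toReal_lt_toReal (by norm_num) hp).mpr hp2
    simpa using h
  set A : ℝ := (|D| + 1) ^ q * (|C| + 1) with hA
  obtain ⟨k, hk1, hkN, hkA⟩ := exists_k_superlog q hq2 A N0
  obtain ⟨m, x, hxinj, hx⟩ := hgrid p hp hp2.le k hk1
  have hn7 : 6 * k + 1 ≤ (6 * k + 1) ^ k := by
    calc 6 * k + 1 = (6 * k + 1) ^ 1 := (pow_one _).symm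
      _ ≤ (6 * k + 1) ^ k := Nat.pow_le_pow_right (by omega) hk1
  have hn2 : 2 ≤ (6 * k + 1) ^ k := by omega
  refine ⟨(6 * k + 1) ^ k, m, x, by omega, hn2, hxinj, ?_⟩
  intro d y s hs hy
  -- D ≥ 1 from two distinct points
  have hD1 : 1 ≤ D := by
    have hne : (⟨0, by omega⟩ : Fin ((6 * k + 1) ^ k)) ≠ ⟨1, by omega⟩ := by
      intro h
      have := congrArg Fin.val h
      simp at this
    have hdpos : 0 < dist (x ⟨0, by omega⟩) (x ⟨1, by omega⟩) :=
      dist_pos.mpr (fun h => hne (hxinj h))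
    obtain ⟨h1, h2⟩ := hy ⟨0, by omega⟩ ⟨1, by omega⟩
    have h3 : s * dist (x ⟨0, by omega⟩) (x ⟨1, by omega⟩)
        ≤ D * (s * dist (x ⟨0, by omega⟩) (x ⟨1, by omega⟩)) := by
      have := le_trans h1 h2
      linarith [this, mul_assoc D s (dist (x ⟨0, by omega⟩) (x ⟨1, by omega⟩))]
    have h4 : 0 < s * dist (x ⟨0, by omega⟩) (x ⟨1, by omega⟩) := mul_pos hs hdpos
    by_contra hlt
    have hlt' : D < 1 := not_le.mp hlt
    nlinarith
  have hmain := hx d y s D hs hy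
  have hq0 : 0 ≤ q := by linarith
  have hDq : D ^ q ≤ (|D| + 1) ^ q :=
    Real.rpow_le_rpow (by linarith) (by linarith [le_abs_self D]) hq0
  have hd0 : (0 : ℝ) ≤ d := Nat.cast_nonneg d
  have hDpos : 0 < (|D| + 1) ^ q := Real.rpow_pos_of_pos (by positivity) _
  have h1 : A * ((k : ℝ) * Real.log (6 * (k : ℝ) + 1)) < (|D| + 1) ^ q * d := by
    calc A * ((k : ℝ) * Real.log (6 * (k : ℝ) + 1))
        < (1 / 11 : ℝ) * (2 * k / (3 * q ^ 2)) ^ (q / 2) := hkA
      _ ≤ D ^ q * d := hmain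
      _ ≤ (|D| + 1) ^ q * d := mul_le_mul_of_nonneg_right hDq hd0
  have h2 : (|C| + 1) * ((k : ℝ) * Real.log (6 * (k : ℝ) + 1)) < d := by
    rw [hA, mul_assoc] at h1
    exact lt_of_mul_lt_mul_left h1 hDpos.le
  have hlogn : Real.log (((6 * k + 1) ^ k : ℕ) : ℝ) = (k : ℝ) * Real.log (6 * (k : ℝ) + 1) := by
    push_cast
    rw [Real.log_pow]
  rw [hlogn]
  have hlognn : 0 ≤ (k : ℝ) * Real.log (6 * (k : ℝ) + 1) := by
    have : (0 : ℝ) ≤ k := Nat.cast_nonneg k
    exact mul_nonneg this (Real.log_nonneg (by linarith))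
  have h3 : C * ((k : ℝ) * Real.log (6 * (k : ℝ) + 1))
      ≤ (|C| + 1) * ((k : ℝ) * Real.log (6 * (k : ℝ) + 1)) :=
    mul_le_mul_of_nonneg_right (by linarith [le_abs_self C]) hlognn
  linarith

end Vale.Agent.Lib.P249.H96

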