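import Mathlib

/-!
# P249: total pair sensitivity `≤ 76^q n` via multi-scale nearest-neighbour weights

Formalization of helper59's theorem (report 1593). For a finite pseudometric space `(X, d)` and
`q ≥ 1` there are absolute weights `φ x y ≥ 0` with `∑ y, φ x y ≤ 1` such that for every function
`g` (constant on points at distance zero) and all `i j`:
`|g i - g j|^q ≤ 76^q d(i,j)^q ∑ x y, φ x y |g x - g y|^q / d(x,y)^q`.
-/

namespace Vale.Agent.Lib.P249.Knn

open Finset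

variable {X : Type*} [Fintype X] [DecidableEq X]

/-- Nearest-neighbour sets exist: a set of `min K (card X)` points such that every point outside
is at least as far from `x` as every point inside. -/
theorem exists_nn (d : X → X → ℝ) (K : ℕ) (x : X) :
    ∃ S : Finset X, S.card = min K (Fintype.card X) ∧
      ∀ y z, y ∉ S → z ∈ S → d x z ≤ d x y := by
  classical
  have hne : (Finset.powersetCard (min K (Fintype.card X)) (Finset.univ : Finset X)).Nonempty := by
    apply Finset.powersetCard_nonempty.2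
    rw [Finset.card_univ]
    exact min_le_right _ _
  obtain ⟨S, hS, hmin⟩ :=
    Finset.exists_min_image _ (fun S : Finset X => ∑ z ∈ S, d x z) hne
  rw [Finset.mem_powersetCard] at hS
  refine ⟨S, hS.2, ?_⟩
  intro y z hy hz
  by_contra hlt
  rw [not_le] at hlt
  have hy' : y ∉ S.erase z := fun h => hy (Finset.mem_of_mem_erase h)
  have hS' : insert y (S.erase z) ∈
      Finset.powersetCard (min K (Fintype.card X)) (Finset.univ : Finset X) := by
    rw [Finset.mem_powersetCard]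
    refine ⟨Finset.subset_univ _, ?_⟩
    rw [Finset.card_insert_of_notMem hy', Finset.card_erase_of_mem hz, ← hS.2]
    have : 0 < S.card := Finset.card_pos.2 ⟨z, hz⟩
    omega
  have h1 := hmin _ hS'
  rw [Finset.sum_insert hy'] at h1
  have h2 := Finset.add_sum_erase S (fun w => d x w) hz
  linarith

/-- A choice of nearest-neighbour sets. -/
noncomputable def nn (d : X → X → ℝ) (K : ℕ) (x : X) : Finset X :=
  Classical.choose (exists_nn d K x)

theorem nn_card (d : X → X → ℝ) (K : ℕ) (x : X) :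
    (nn d K x).card = min K (Fintype.card X) :=
  (Classical.choose_spec (exists_nn d K x)).1

theorem nn_le (d : X → X → ℝ) (K : ℕ) (x : X) {y z : X} (hy : y ∉ nn d K x)
    (hz : z ∈ nn d K x) : d x z ≤ d x y :=
  (Classical.choose_spec (exists_nn d K x)).2 y z hy hz

theorem nn_eq_univ (d : X → X → ℝ) (K : ℕ) (x : X) (hK : Fintype.card X ≤ K) :
    nn d K x = Finset.univ := by
  rw [← Finset.card_eq_iff_eq_univ, nn_card, min_eq_right hK]

theorem nn_card_pos (d : X → X → ℝ) (K : ℕ) (hK : 0 < K) (x : X) : 0 < (nn d K x).card := by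
  rw [nn_card]
  have : 0 < Fintype.card X := Fintype.card_pos_iff.2 ⟨x⟩
  omega

/-- The radii `σ_k = ρ (5^k - 1)/2`. -/
noncomputable def sig (ρ : ℝ) (k : ℕ) : ℝ := ρ * ((5 : ℝ) ^ k - 1) / 2

theorem sig_zero (ρ : ℝ) : sig ρ 0 = 0 := by simp [sig]

theorem sig_succ (ρ : ℝ) (k : ℕ) : sig ρ (k + 1) = sig ρ k + 2 * ρ * 5 ^ k := by
  simp only [sig, pow_succ]; ring

theorem four_sig (ρ : ℝ) (k : ℕ) : 4 * sig ρ k + 2 * ρ = 2 * ρ * 5 ^ k := by
  simp only [sig]; ring

theorem two_sig (ρ : ℝ) (k : ℕ) : 2 * sig ρ k + ρ = ρ * 5 ^ k := by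
  simp only [sig]; ring

theorem sig_nonneg {ρ : ℝ} (hρ : 0 ≤ ρ) (k : ℕ) : 0 ≤ sig ρ k := by
  have h : (1 : ℝ) ≤ 5 ^ k := one_le_pow₀ (by norm_num)
  simp only [sig]
  have : 0 ≤ ρ * ((5 : ℝ) ^ k - 1) := mul_nonneg hρ (by linarith)
  linarith

section Main

variable (d : X → X → ℝ) (d_nonneg : ∀ x y, 0 ≤ d x y) (d_self : ∀ x, d x x = 0)
  (d_symm : ∀ x y, d x y = d y x) (d_tri : ∀ x y z, d x z ≤ d x y + d y z) (L : ℕ)

/-- `Large k`: every point near `i` has every point near `j` among its `L^(k+1)` nearest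
neighbours. -/
def Large (i j : X) (k : ℕ) : Prop :=
  ∀ x y, d i x ≤ sig (d i j) k → d j y ≤ sig (d i j) k → y ∈ nn d (L ^ (k + 1)) x

include d_nonneg d_symm d_tri in
/-- Claim 1: below the first large scale the nearest-neighbour sets near `i` and `j` have exactly
`L^(k+1)` points and small radius. -/
theorem claim1 (i j : X) (k : ℕ) (hk : ¬ Large d L i j k) (z : X)
    (hz : d i z ≤ sig (d i j) k ∨ d j z ≤ sig (d i j) k) :
    (nn d (L ^ (k + 1)) z).card = L ^ (k + 1) ∧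
      ∀ w ∈ nn d (L ^ (k + 1)) z, d z w ≤ 2 * d i j * 5 ^ k := by
  classical
  simp only [Large, not_forall] at hk
  obtain ⟨x0, y0, hx0, hy0, hy0S⟩ := hk
  set ρ := d i j with hρ
  set σ := sig ρ k with hσ
  have hρ0 : 0 ≤ ρ := d_nonneg i j
  have hσ0 : 0 ≤ σ := sig_nonneg hρ0 k
  -- all sets have exactly L^(k+1) points
  have hlt : L ^ (k + 1) < Fintype.card X := by
    by_contra hge
    rw [not_lt] at hge
    have := nn_eq_univ d (L ^ (k + 1)) x0 hge
    rw [this] at hy0S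
    exact hy0S (Finset.mem_univ _)
  have hcard : ∀ v, (nn d (L ^ (k + 1)) v).card = L ^ (k + 1) := by
    intro v
    rw [nn_card, min_eq_left hlt.le]
  -- S(x0) has radius ≤ 2σ + ρ
  have hx0y0 : d x0 y0 ≤ 2 * σ + ρ := by
    have h1 := d_tri x0 i y0
    have h2 := d_tri i j y0
    have h3 := d_symm x0 i
    linarith
  have hrad : ∀ u ∈ nn d (L ^ (k + 1)) x0, d x0 u ≤ 2 * σ + ρ := fun u hu =>
    le_trans (nn_le d _ x0 hy0S hu) hx0y0
  have hzx0 : d z x0 ≤ 2 * σ + ρ := by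
    rcases hz with hz | hz
    · have h1 := d_tri z i x0
      have h3 := d_symm z i
      linarith
    · have h1 := d_tri z j x0
      have h2 := d_tri j i x0
      have h3 := d_symm z j
      have h4 := d_symm j i
      linarith
  refine ⟨hcard z, ?_⟩
  intro w hw
  by_contra hfar
  rw [not_le, ← four_sig] at hfar
  have hw0 : w ∉ nn d (L ^ (k + 1)) x0 := by
    intro hw0
    have h1 := d_tri z x0 w
    have h2 := hrad w hw0
    linarith
  have hex : ∃ u ∈ nn d (L ^ (k + 1)) x0, u ∉ nn d (L ^ (k + 1)) z := by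
    by_contra hall
    push Not at hall
    have hsub : nn d (L ^ (k + 1)) x0 ⊆ nn d (L ^ (k + 1)) z := hall
    have heq := Finset.eq_of_subset_of_card_le hsub (by rw [hcard, hcard])
    rw [heq] at hw0
    exact hw0 hw
  obtain ⟨u, hu, huz⟩ := hex
  have h1 := nn_le d _ z huz hw
  have h2 := d_tri z x0 u
  have h3 := hrad u hu
  linarith


/-! ### Weights -/

/-- The multi-scale nearest-neighbour weights. -/
noncomputable def phi (x y : X) : ℝ :=
  ∑ l ∈ Finset.range (Fintype.card X),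
    (if y ∈ nn d (L ^ (l + 1)) x then 1 / (2 * (L : ℝ)) ^ (l + 1) else 0)

theorem phi_nonneg (x y : X) : 0 ≤ phi d L x y := by
  apply Finset.sum_nonneg
  intro l _
  split_ifs
  · positivity
  · exact le_rfl

theorem phi_ge (x y : X) (l : ℕ) (hl : l < Fintype.card X) (hy : y ∈ nn d (L ^ (l + 1)) x) :
    1 / (2 * (L : ℝ)) ^ (l + 1) ≤ phi d L x y := by
  have h := Finset.single_le_sum (s := Finset.range (Fintype.card X))
    (f := fun l => (if y ∈ nn d (L ^ (l + 1)) x then 1 / (2 * (L : ℝ)) ^ (l + 1) else 0))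
    (fun l _ => by split_ifs <;> positivity) (Finset.mem_range.2 hl)
  simp only [if_pos hy] at h
  exact h

omit [DecidableEq X] in
theorem sum_ind (S : Finset X) [DecidablePred (· ∈ S)] :
    ∑ y, (if y ∈ S then (1 : ℝ) else 0) = S.card := by
  classical
  rw [Finset.sum_boole]
  congr 2
  ext y
  simp

theorem geom_half (N : ℕ) : ∑ l ∈ Finset.range N, (1 / 2 : ℝ) ^ (l + 1) = 1 - (1 / 2) ^ N := by
  induction N with
  | zero => simp
  | succ N ih => rw [Finset.sum_range_succ, ih]; ring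

theorem phi_sum_le (hL : 1 ≤ L) (x : X) : ∑ y, phi d L x y ≤ 1 := by
  have hL' : (1 : ℝ) ≤ L := by exact_mod_cast hL
  simp only [phi]
  rw [Finset.sum_comm]
  have h1 : ∀ l ∈ Finset.range (Fintype.card X),
      ∑ y, (if y ∈ nn d (L ^ (l + 1)) x then 1 / (2 * (L : ℝ)) ^ (l + 1) else 0)
        ≤ (1 / 2 : ℝ) ^ (l + 1) := by
    intro l _
    have e : ∀ y, (if y ∈ nn d (L ^ (l + 1)) x then 1 / (2 * (L : ℝ)) ^ (l + 1) else 0)
        = (if y ∈ nn d (L ^ (l + 1)) x then (1 : ℝ) else 0) * (1 / (2 * (L : ℝ)) ^ (l + 1)) := by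
      intro y
      split_ifs <;> simp
    rw [Finset.sum_congr rfl (fun y _ => e y), ← Finset.sum_mul, sum_ind]
    have hc : ((nn d (L ^ (l + 1)) x).card : ℝ) ≤ (L : ℝ) ^ (l + 1) := by
      have := nn_card d (L ^ (l + 1)) x
      have h2 : (nn d (L ^ (l + 1)) x).card ≤ L ^ (l + 1) := by
        rw [this]; exact min_le_left _ _
      exact_mod_cast h2
    have hpos : (0 : ℝ) < (2 * (L : ℝ)) ^ (l + 1) := by positivity
    rw [mul_one_div, div_le_iff₀ hpos]
    have e2 : (1 / 2 : ℝ) ^ (l + 1) * (2 * (L : ℝ)) ^ (l + 1) = (L : ℝ) ^ (l + 1) := by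
      rw [← mul_pow]
      congr 1
      ring
    rw [e2]
    exact hc
  calc _ ≤ ∑ l ∈ Finset.range (Fintype.card X), (1 / 2 : ℝ) ^ (l + 1) := Finset.sum_le_sum h1
    _ = 1 - (1 / 2) ^ (Fintype.card X) := geom_half _
    _ ≤ 1 := by
        have : (0 : ℝ) ≤ (1 / 2) ^ (Fintype.card X) := by positivity
        linarith

/-! ### Jensen and the basic comparison with `T` -/

omit [Fintype X] [DecidableEq X] in
theorem jensen_abs {ι : Type*} (s : Finset ι) (a t : ι → ℝ) (ha : ∀ i ∈ s, 0 ≤ a i)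
    (hsum : ∑ i ∈ s, a i = 1) (q : ℝ) (hq : 1 ≤ q) :
    |∑ i ∈ s, a i * t i| ^ q ≤ ∑ i ∈ s, a i * |t i| ^ q := by
  have h1 : |∑ i ∈ s, a i * t i| ≤ ∑ i ∈ s, a i * |t i| := by
    refine le_trans (Finset.abs_sum_le_sum_abs _ _) (le_of_eq ?_)
    apply Finset.sum_congr rfl
    intro i hi
    rw [abs_mul, abs_of_nonneg (ha i hi)]
  have h2 := Real.rpow_arith_mean_le_arith_mean_rpow s a (fun i => |t i|) ha hsum
    (fun i _ => abs_nonneg _) hq
  exact le_trans (Real.rpow_le_rpow (abs_nonneg _) h1 (by linarith)) h2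

/-- The quantity `T = ∑ φ(x,y) |g x - g y|^q / d(x,y)^q`. -/
noncomputable def TT (q : ℝ) (g : X → ℝ) : ℝ :=
  ∑ x, ∑ y, phi d L x y * (|g x - g y| ^ q / d x y ^ q)

include d_nonneg in
theorem TT_nonneg (q : ℝ) (g : X → ℝ) : 0 ≤ TT d L q g := by
  apply Finset.sum_nonneg; intro x _
  apply Finset.sum_nonneg; intro y _
  exact mul_nonneg (phi_nonneg d L x y)
    (div_nonneg (Real.rpow_nonneg (abs_nonneg _) _) (Real.rpow_nonneg (d_nonneg x y) _))

include d_nonneg in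
/-- One pair: a weight below `A (2L)^-(l+1)` on a level-`(l+1)` neighbour at distance `≤ D`. -/
theorem term_le (q : ℝ) (hq : 1 ≤ q) (g : X → ℝ) (hg : ∀ x y, d x y = 0 → g x = g y)
    (x y : X) (l : ℕ) (hl : l < Fintype.card X) (hy : y ∈ nn d (L ^ (l + 1)) x)
    (D : ℝ) (hD : d x y ≤ D) (a A : ℝ) (_ha0 : 0 ≤ a) (hA : 0 ≤ A)
    (ha : a ≤ A / (2 * (L : ℝ)) ^ (l + 1)) :
    a * |g x - g y| ^ q ≤ A * D ^ q * (phi d L x y * (|g x - g y| ^ q / d x y ^ q)) := by
  have hq0 : 0 < q := by linarith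
  have hD0 : 0 ≤ D := le_trans (d_nonneg x y) hD
  have hr : 0 ≤ |g x - g y| ^ q / d x y ^ q :=
    div_nonneg (Real.rpow_nonneg (abs_nonneg _) _) (Real.rpow_nonneg (d_nonneg x y) _)
  have hphi := phi_nonneg d L x y
  have hDq : 0 ≤ D ^ q := Real.rpow_nonneg hD0 _
  rcases (d_nonneg x y).eq_or_lt with h0 | hpos
  · have hgxy := hg x y h0.symm
    rw [hgxy, sub_self, abs_zero, Real.zero_rpow hq0.ne']
    simp
  · have hdq : 0 < d x y ^ q := Real.rpow_pos_of_pos hpos _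
    have h1 : |g x - g y| ^ q = (|g x - g y| ^ q / d x y ^ q) * d x y ^ q := by
      field_simp
    have h2 : d x y ^ q ≤ D ^ q := Real.rpow_le_rpow hpos.le hD hq0.le
    have h3 : a ≤ A * phi d L x y := by
      have := phi_ge d L x y l hl hy
      calc a ≤ A / (2 * (L : ℝ)) ^ (l + 1) := ha
        _ = A * (1 / (2 * (L : ℝ)) ^ (l + 1)) := by ring
        _ ≤ A * phi d L x y := mul_le_mul_of_nonneg_left this hA
    calc a * |g x - g y| ^ q
        = a * ((|g x - g y| ^ q / d x y ^ q) * d x y ^ q) := by rw [← h1]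
      _ ≤ (A * phi d L x y) * ((|g x - g y| ^ q / d x y ^ q) * D ^ q) := by
          apply mul_le_mul h3 (mul_le_mul_of_nonneg_left h2 hr) (by positivity)
            (mul_nonneg hA hphi)
      _ = A * D ^ q * (phi d L x y * (|g x - g y| ^ q / d x y ^ q)) := by ring

include d_nonneg in
/-- Summed form. -/
theorem sum_le (q : ℝ) (hq : 1 ≤ q) (g : X → ℝ) (hg : ∀ x y, d x y = 0 → g x = g y)
    (l : ℕ) (hl : l < Fintype.card X) (D A : ℝ) (hD0 : 0 ≤ D) (hA : 0 ≤ A)
    (a : X → X → ℝ) (ha0 : ∀ x y, 0 ≤ a x y)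
    (ha : ∀ x y, a x y ≠ 0 →
      y ∈ nn d (L ^ (l + 1)) x ∧ d x y ≤ D ∧ a x y ≤ A / (2 * (L : ℝ)) ^ (l + 1)) :
    ∑ x, ∑ y, a x y * |g x - g y| ^ q ≤ A * D ^ q * TT d L q g := by
  simp only [TT]
  rw [Finset.mul_sum]
  apply Finset.sum_le_sum
  intro x _
  rw [Finset.mul_sum]
  apply Finset.sum_le_sum
  intro y _
  by_cases h0 : a x y = 0
  · rw [h0, zero_mul]
    exact mul_nonneg (mul_nonneg hA (Real.rpow_nonneg hD0 _))
      (mul_nonneg (phi_nonneg d L x y)
        (div_nonneg (Real.rpow_nonneg (abs_nonneg _) _) (Real.rpow_nonneg (d_nonneg x y) _)))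
  · obtain ⟨hy, hD, hle⟩ := ha x y h0
    exact term_le d d_nonneg L q hq g hg x y l hl hy D hD (a x y) A (ha0 x y) hA hle


/-! ### The nearest-neighbour walk -/

/-- The measures `μ_k` of the walk started at `c`. -/
noncomputable def mu (c : X) : ℕ → X → ℝ
  | 0 => fun y => if y = c then 1 else 0
  | (k + 1) => fun y => ∑ x, mu c k x *
      ((if y ∈ nn d (L ^ (k + 1)) x then (1 : ℝ) else 0) / ((nn d (L ^ (k + 1)) x).card : ℝ))

theorem mu_zero (c y : X) : mu d L c 0 y = if y = c then 1 else 0 := rfl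

theorem mu_succ (c : X) (k : ℕ) (y : X) : mu d L c (k + 1) y = ∑ x, mu d L c k x *
    ((if y ∈ nn d (L ^ (k + 1)) x then (1 : ℝ) else 0) / ((nn d (L ^ (k + 1)) x).card : ℝ)) := rfl

theorem mu_nonneg (c : X) (k : ℕ) (y : X) : 0 ≤ mu d L c k y := by
  induction k generalizing y with
  | zero => rw [mu_zero]; split_ifs <;> norm_num
  | succ k ih =>
    rw [mu_succ]
    apply Finset.sum_nonneg
    intro x _
    apply mul_nonneg (ih x)
    apply div_nonneg
    · split_ifs <;> norm_num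
    · exact Nat.cast_nonneg _

/-- The kernel of one step sums to one. -/
theorem kernel_sum (hL : 1 ≤ L) (k : ℕ) (x : X) :
    ∑ y, ((if y ∈ nn d (L ^ (k + 1)) x then (1 : ℝ) else 0)
      / ((nn d (L ^ (k + 1)) x).card : ℝ)) = 1 := by
  rw [← Finset.sum_div, sum_ind]
  have hpos : 0 < (nn d (L ^ (k + 1)) x).card := nn_card_pos d _ (by positivity) x
  have : ((nn d (L ^ (k + 1)) x).card : ℝ) ≠ 0 := by exact_mod_cast hpos.ne'
  exact div_self this

theorem mu_sum (hL : 1 ≤ L) (c : X) (k : ℕ) : ∑ y, mu d L c k y = 1 := by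
  induction k with
  | zero => simp [mu_zero]
  | succ k ih =>
    simp only [mu_succ]
    rw [Finset.sum_comm]
    simp only [← Finset.mul_sum]
    simp only [kernel_sum d L hL, mul_one]
    exact ih

/-- The expectation of `g` under `μ_k`. -/
noncomputable def EE (c : X) (g : X → ℝ) (k : ℕ) : ℝ := ∑ y, mu d L c k y * g y

theorem EE_zero (c : X) (g : X → ℝ) : EE d L c g 0 = g c := by
  simp [EE, mu_zero]

/-- The hypothesis on the scales below `K0` around the centre `c` (conclusion of Claim 1). -/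
def Small (ρ : ℝ) (c : X) (K0 : ℕ) : Prop :=
  ∀ k < K0, ∀ z, d c z ≤ sig ρ k →
    (nn d (L ^ (k + 1)) z).card = L ^ (k + 1) ∧
      ∀ w ∈ nn d (L ^ (k + 1)) z, d z w ≤ 2 * ρ * 5 ^ k

include d_self d_tri in
/-- Claim 2, support. -/
theorem mu_supp (ρ : ℝ) (c : X) (K0 : ℕ) (hS : Small d L ρ c K0) :
    ∀ k ≤ K0, ∀ y, mu d L c k y ≠ 0 → d c y ≤ sig ρ k := by
  intro k
  induction k with
  | zero =>
    intro _ y hy
    rw [mu_zero] at hy
    have : y = c := by
      by_contra h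
      rw [if_neg h] at hy
      exact hy rfl
    rw [this, d_self, sig_zero]
  | succ k ih =>
    intro hk y hy
    rw [mu_succ] at hy
    obtain ⟨x, _, hx⟩ := Finset.exists_ne_zero_of_sum_ne_zero hy
    have hx1 : mu d L c k x ≠ 0 := left_ne_zero_of_mul hx
    have hx2 : y ∈ nn d (L ^ (k + 1)) x := by
      by_contra h
      rw [if_neg h, zero_div, mul_zero] at hx
      exact hx rfl
    have h1 := ih (by omega) x hx1
    have h2 := (hS k (by omega) x h1).2 y hx2
    have h3 := d_tri c x y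
    rw [sig_succ]
    linarith

include d_self d_tri in
/-- Claim 2, pointwise bound. -/
theorem mu_le (hL : 1 ≤ L) (ρ : ℝ) (c : X) (K0 : ℕ) (hS : Small d L ρ c K0) :
    ∀ k ≤ K0, ∀ y, mu d L c k y ≤ 1 / (L : ℝ) ^ k := by
  have hL' : (1 : ℝ) ≤ L := by exact_mod_cast hL
  intro k
  induction k with
  | zero =>
    intro _ y
    rw [mu_zero]
    split_ifs <;> norm_num
  | succ k ih =>
    intro hk y
    rw [mu_succ]
    have hpos : (0 : ℝ) < (L : ℝ) ^ (k + 1) := by positivity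
    have hterm : ∀ x ∈ (Finset.univ : Finset X), mu d L c k x *
        ((if y ∈ nn d (L ^ (k + 1)) x then (1 : ℝ) else 0) / ((nn d (L ^ (k + 1)) x).card : ℝ))
          ≤ mu d L c k x * (1 / (L : ℝ) ^ (k + 1)) := by
      intro x _
      by_cases hx : mu d L c k x = 0
      · rw [hx, zero_mul, zero_mul]
      · have h1 := mu_supp d d_self d_tri L ρ c K0 hS k (by omega) x hx
        have h2 := (hS k (by omega) x h1).1
        rw [h2]
        apply mul_le_mul_of_nonneg_left _ (mu_nonneg d L c k x)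
        push_cast
        apply div_le_div_of_nonneg_right _ hpos.le
        split_ifs <;> norm_num
    calc _ ≤ ∑ x, mu d L c k x * (1 / (L : ℝ) ^ (k + 1)) := Finset.sum_le_sum hterm
      _ = 1 / (L : ℝ) ^ (k + 1) := by rw [← Finset.sum_mul, mu_sum d L hL, one_mul]

include d_nonneg d_self d_tri in
/-- Claim 3: one step of the walk. -/
theorem step_le (hL : 1 ≤ L) (q : ℝ) (hq : 1 ≤ q) (g : X → ℝ)
    (hg : ∀ x y, d x y = 0 → g x = g y) (ρ : ℝ) (hρ : 0 ≤ ρ) (c : X) (K0 : ℕ)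
    (hS : Small d L ρ c K0) (k : ℕ) (hk : k < K0) (hkN : k < Fintype.card X) :
    |EE d L c g (k + 1) - EE d L c g k| ^ q
      ≤ (2 ^ (k + 1) / (L : ℝ) ^ k) * (2 * ρ * 5 ^ k) ^ q * TT d L q g := by
  have hL' : (1 : ℝ) ≤ L := by exact_mod_cast hL
  set a : X → X → ℝ := fun x y => mu d L c k x *
    ((if y ∈ nn d (L ^ (k + 1)) x then (1 : ℝ) else 0) / ((nn d (L ^ (k + 1)) x).card : ℝ))
    with ha
  have ha0 : ∀ x y, 0 ≤ a x y := by
    intro x y
    apply mul_nonneg (mu_nonneg d L c k x)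
    apply div_nonneg
    · split_ifs <;> norm_num
    · exact Nat.cast_nonneg _
  have hrow : ∀ x, ∑ y, a x y = mu d L c k x := by
    intro x
    simp only [ha]
    rw [← Finset.mul_sum, kernel_sum d L hL, mul_one]
  have hsum1 : ∑ p : X × X, a p.1 p.2 = 1 := by
    rw [Fintype.sum_prod_type]
    simp only [hrow]
    exact mu_sum d L hL c k
  have hdiff : EE d L c g (k + 1) - EE d L c g k = ∑ p : X × X, a p.1 p.2 * (g p.2 - g p.1) := by
    rw [Fintype.sum_prod_type]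
    simp only [mul_sub, Finset.sum_sub_distrib]
    congr 1
    · simp only [EE, mu_succ]
      rw [Finset.sum_comm]
      apply Finset.sum_congr rfl
      intro y _
      rw [Finset.sum_mul]
    · simp only [EE]
      apply Finset.sum_congr rfl
      intro x _
      rw [← Finset.sum_mul, hrow]
  rw [hdiff]
  have hJ := jensen_abs (Finset.univ : Finset (X × X)) (fun p => a p.1 p.2)
    (fun p => g p.2 - g p.1) (fun p _ => ha0 p.1 p.2) hsum1 q hq
  refine le_trans hJ ?_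
  rw [Fintype.sum_prod_type]
  have hcomm : ∀ x y, a x y * |g y - g x| ^ q = a x y * |g x - g y| ^ q := by
    intro x y; rw [abs_sub_comm]
  simp only [hcomm]
  apply sum_le d d_nonneg L q hq g hg k hkN (2 * ρ * 5 ^ k) (2 ^ (k + 1) / (L : ℝ) ^ k)
    (by positivity) (by positivity) a ha0
  intro x y hxy
  have hx1 : mu d L c k x ≠ 0 := left_ne_zero_of_mul hxy
  have hx2 : y ∈ nn d (L ^ (k + 1)) x := by
    by_contra h
    simp only [ha, if_neg h, zero_div, mul_zero] at hxy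
    exact hxy rfl
  have h1 := mu_supp d d_self d_tri L ρ c K0 hS k hk.le x hx1
  obtain ⟨hcard, hrad⟩ := hS k hk x h1
  refine ⟨hx2, hrad y hx2, ?_⟩
  simp only [ha, if_pos hx2, hcard]
  have h2 := mu_le d d_self d_tri L hL ρ c K0 hS k hk.le x
  have hLk : (0 : ℝ) < (L : ℝ) ^ k := by positivity
  have hLk1 : (0 : ℝ) < (L : ℝ) ^ (k + 1) := by positivity
  have e : (2 : ℝ) ^ (k + 1) / (L : ℝ) ^ k / (2 * (L : ℝ)) ^ (k + 1)
      = (1 / (L : ℝ) ^ k) * (1 / (L : ℝ) ^ (k + 1)) := by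
    rw [mul_pow]
    field_simp
  rw [e]
  push_cast
  exact mul_le_mul_of_nonneg_right h2 (by positivity)

include d_nonneg d_symm d_tri in
/-- Claim 4: the two walks meet at a large scale. -/
theorem meet_le (hL : 1 ≤ L) (q : ℝ) (hq : 1 ≤ q) (g : X → ℝ)
    (hg : ∀ x y, d x y = 0 → g x = g y) (i j : X) (k : ℕ) (hkN : k < Fintype.card X)
    (hlarge : Large d L i j k)
    (hsi : ∀ y, mu d L i k y ≠ 0 → d i y ≤ sig (d i j) k)
    (hsj : ∀ y, mu d L j k y ≠ 0 → d j y ≤ sig (d i j) k)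
    (hli : ∀ y, mu d L i k y ≤ 1 / (L : ℝ) ^ k)
    (hlj : ∀ y, mu d L j k y ≤ 1 / (L : ℝ) ^ k) :
    |EE d L i g k - EE d L j g k| ^ q
      ≤ ((2 * (L : ℝ)) ^ (k + 1) / ((L : ℝ) ^ k * (L : ℝ) ^ k)) * (d i j * 5 ^ k) ^ q
          * TT d L q g := by
  have hL' : (1 : ℝ) ≤ L := by exact_mod_cast hL
  set a : X → X → ℝ := fun x y => mu d L i k x * mu d L j k y with ha
  have ha0 : ∀ x y, 0 ≤ a x y := fun x y =>
    mul_nonneg (mu_nonneg d L i k x) (mu_nonneg d L j k y)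
  have hsum1 : ∑ p : X × X, a p.1 p.2 = 1 := by
    rw [Fintype.sum_prod_type]
    simp only [ha, ← Finset.mul_sum, mu_sum d L hL, mul_one]
  have hdiff : EE d L i g k - EE d L j g k = ∑ p : X × X, a p.1 p.2 * (g p.1 - g p.2) := by
    rw [Fintype.sum_prod_type]
    simp only [mul_sub, Finset.sum_sub_distrib]
    congr 1
    · simp only [EE, ha]
      apply Finset.sum_congr rfl
      intro x _
      rw [← Finset.sum_mul, ← Finset.mul_sum, mu_sum d L hL, mul_one]
    · simp only [EE, ha]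
      rw [Finset.sum_comm]
      apply Finset.sum_congr rfl
      intro y _
      rw [← Finset.sum_mul, ← Finset.sum_mul, mu_sum d L hL, one_mul]
  rw [hdiff]
  have hJ := jensen_abs (Finset.univ : Finset (X × X)) (fun p => a p.1 p.2)
    (fun p => g p.1 - g p.2) (fun p _ => ha0 p.1 p.2) hsum1 q hq
  refine le_trans hJ ?_
  rw [Fintype.sum_prod_type]
  have hρ0 : 0 ≤ d i j := d_nonneg i j
  apply sum_le d d_nonneg L q hq g hg k hkN (d i j * 5 ^ k)
    ((2 * (L : ℝ)) ^ (k + 1) / ((L : ℝ) ^ k * (L : ℝ) ^ k)) (by positivity) (by positivity) a ha0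
  intro x y hxy
  have hx1 : mu d L i k x ≠ 0 := left_ne_zero_of_mul hxy
  have hy1 : mu d L j k y ≠ 0 := right_ne_zero_of_mul hxy
  have h1 := hsi x hx1
  have h2 := hsj y hy1
  refine ⟨hlarge x y h1 h2, ?_, ?_⟩
  · have h3 := d_tri x i y
    have h4 := d_tri i j y
    have h5 := d_symm x i
    have h6 := two_sig (d i j) k
    linarith
  · have hLk : (0 : ℝ) < (L : ℝ) ^ k := by positivity
    have e : (2 * (L : ℝ)) ^ (k + 1) / ((L : ℝ) ^ k * (L : ℝ) ^ k) / (2 * (L : ℝ)) ^ (k + 1)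
        = (1 / (L : ℝ) ^ k) * (1 / (L : ℝ) ^ k) := by
      field_simp
    rw [e]
    exact mul_le_mul (hli x) (hlj y) (mu_nonneg d L j k y) (by positivity)


end Main

/-! ### Arithmetic -/

theorem pow_rpow_comm (k : ℕ) (q : ℝ) : ((5 : ℝ) ^ k) ^ q = ((5 : ℝ) ^ q) ^ k := by
  rw [← Real.rpow_natCast, ← Real.rpow_mul (by norm_num), mul_comm,
    Real.rpow_mul (by norm_num), Real.rpow_natCast]

theorem half_pow_rpow_comm (k : ℕ) (q : ℝ) : ((1 / 2 : ℝ) ^ k) ^ q = ((1 / 2 : ℝ) ^ q) ^ k := by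
  rw [← Real.rpow_natCast, ← Real.rpow_mul (by norm_num), mul_comm,
    Real.rpow_mul (by norm_num), Real.rpow_natCast]

theorem theta_le (q : ℝ) (L : ℝ) (hLq : 2 * (10 : ℝ) ^ q ≤ L) :
    2 * (5 : ℝ) ^ q / L ≤ (1 / 2 : ℝ) ^ q := by
  have h10 : (10 : ℝ) ^ q = (5 : ℝ) ^ q * (2 : ℝ) ^ q := by
    rw [← Real.mul_rpow (by norm_num) (by norm_num)]; norm_num
  have h5 : (0 : ℝ) < (5 : ℝ) ^ q := Real.rpow_pos_of_pos (by norm_num) _
  have h2 : (0 : ℝ) < (2 : ℝ) ^ q := Real.rpow_pos_of_pos (by norm_num) _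
  have hL : 0 < L := by nlinarith
  have hhalf : (1 / 2 : ℝ) ^ q = 1 / (2 : ℝ) ^ q := by
    rw [Real.div_rpow (by norm_num) (by norm_num), Real.one_rpow]
  rw [hhalf, div_le_div_iff₀ hL h2]
  rw [h10] at hLq
  linarith

theorem step_arith (q : ℝ) (hq : 1 ≤ q) (L : ℝ) (hLq : 2 * (10 : ℝ) ^ q ≤ L) (ρ : ℝ)
    (hρ : 0 ≤ ρ) (k : ℕ) :
    (2 ^ (k + 1) / L ^ k) * (2 * ρ * 5 ^ k) ^ q ≤ (4 * ρ * (1 / 2) ^ k) ^ q := by
  have h5 : (0 : ℝ) < (5 : ℝ) ^ q := Real.rpow_pos_of_pos (by norm_num) _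
  have h10 : (0 : ℝ) < (10 : ℝ) ^ q := Real.rpow_pos_of_pos (by norm_num) _
  have hL : 0 < L := by linarith
  have hθ := theta_le q L hLq
  have hθ0 : 0 ≤ 2 * (5 : ℝ) ^ q / L := by positivity
  have h2q : (2 : ℝ) ≤ (2 : ℝ) ^ q := by
    have := Real.rpow_le_rpow_of_exponent_le (by norm_num : (1 : ℝ) ≤ 2) hq
    rwa [Real.rpow_one] at this
  have e1 : (2 * ρ * 5 ^ k) ^ q = (2 * ρ) ^ q * ((5 : ℝ) ^ q) ^ k := by
    rw [Real.mul_rpow (by positivity) (by positivity), pow_rpow_comm]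
  have e2 : (4 * ρ * (1 / 2) ^ k) ^ q = (2 : ℝ) ^ q * (2 * ρ) ^ q * ((1 / 2 : ℝ) ^ q) ^ k := by
    rw [Real.mul_rpow (by positivity) (by positivity), half_pow_rpow_comm,
      show (4 : ℝ) * ρ = 2 * (2 * ρ) by ring, Real.mul_rpow (by norm_num) (by positivity)]
  have e3 : (2 ^ (k + 1) / L ^ k) * ((2 * ρ) ^ q * ((5 : ℝ) ^ q) ^ k)
      = 2 * (2 * ρ) ^ q * (2 * (5 : ℝ) ^ q / L) ^ k := by
    rw [div_pow, mul_pow, pow_succ]
    field_simp
  rw [e1, e2, e3]
  have hpow : (2 * (5 : ℝ) ^ q / L) ^ k ≤ ((1 / 2 : ℝ) ^ q) ^ k := pow_le_pow_left₀ hθ0 hθ k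
  have h2ρ : 0 ≤ (2 * ρ) ^ q := Real.rpow_nonneg (by positivity) _
  have hpk : 0 ≤ (2 * (5 : ℝ) ^ q / L) ^ k := by positivity
  calc 2 * (2 * ρ) ^ q * (2 * (5 : ℝ) ^ q / L) ^ k
      ≤ (2 : ℝ) ^ q * (2 * ρ) ^ q * (2 * (5 : ℝ) ^ q / L) ^ k := by
        apply mul_le_mul_of_nonneg_right _ hpk
        exact mul_le_mul_of_nonneg_right h2q h2ρ
    _ ≤ (2 : ℝ) ^ q * (2 * ρ) ^ q * ((1 / 2 : ℝ) ^ q) ^ k := by
        apply mul_le_mul_of_nonneg_left hpow
        positivity

theorem meet_arith (q : ℝ) (hq : 1 ≤ q) (L : ℝ) (hLq : 2 * (10 : ℝ) ^ q ≤ L)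
    (hLq' : L ≤ 3 * (10 : ℝ) ^ q) (ρ : ℝ) (hρ : 0 ≤ ρ) (k : ℕ) :
    ((2 * L) ^ (k + 1) / (L ^ k * L ^ k)) * (ρ * 5 ^ k) ^ q ≤ (60 * ρ) ^ q := by
  have h5 : (0 : ℝ) < (5 : ℝ) ^ q := Real.rpow_pos_of_pos (by norm_num) _
  have h10 : (0 : ℝ) < (10 : ℝ) ^ q := Real.rpow_pos_of_pos (by norm_num) _
  have hL : 0 < L := by linarith
  have hθ := theta_le q L hLq
  have hθ0 : 0 ≤ 2 * (5 : ℝ) ^ q / L := by positivity
  have hhalf : (1 / 2 : ℝ) ^ q ≤ 1 := Real.rpow_le_one (by norm_num) (by norm_num) (by linarith)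
  have hθ1 : (2 * (5 : ℝ) ^ q / L) ^ k ≤ 1 := pow_le_one₀ hθ0 (le_trans hθ hhalf)
  have e1 : (ρ * 5 ^ k) ^ q = ρ ^ q * ((5 : ℝ) ^ q) ^ k := by
    rw [Real.mul_rpow hρ (by positivity), pow_rpow_comm]
  have e3 : ((2 * L) ^ (k + 1) / (L ^ k * L ^ k)) * (ρ ^ q * ((5 : ℝ) ^ q) ^ k)
      = 2 * L * ρ ^ q * (2 * (5 : ℝ) ^ q / L) ^ k := by
    rw [div_pow, mul_pow, mul_pow, pow_succ, pow_succ]
    field_simp
  have h6q : (6 : ℝ) ≤ (6 : ℝ) ^ q := by
    have := Real.rpow_le_rpow_of_exponent_le (by norm_num : (1 : ℝ) ≤ 6) hq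
    rwa [Real.rpow_one] at this
  have h60 : (60 : ℝ) ^ q = (6 : ℝ) ^ q * (10 : ℝ) ^ q := by
    rw [← Real.mul_rpow (by norm_num) (by norm_num)]; norm_num
  have hρq : 0 ≤ ρ ^ q := Real.rpow_nonneg hρ _
  rw [e1, e3, Real.mul_rpow (by norm_num) hρ, h60]
  calc 2 * L * ρ ^ q * (2 * (5 : ℝ) ^ q / L) ^ k ≤ 2 * L * ρ ^ q * 1 :=
        mul_le_mul_of_nonneg_left hθ1 (by positivity)
    _ = (2 * L) * ρ ^ q := by ring
    _ ≤ ((6 : ℝ) ^ q * (10 : ℝ) ^ q) * ρ ^ q := by
        apply mul_le_mul_of_nonneg_right _ hρq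
        have h1 : 2 * L ≤ 6 * (10 : ℝ) ^ q := by linarith
        have h2 : 6 * (10 : ℝ) ^ q ≤ (6 : ℝ) ^ q * (10 : ℝ) ^ q :=
          mul_le_mul_of_nonneg_right h6q h10.le
        linarith

theorem root_le (q : ℝ) (hq : 1 ≤ q) (s c T : ℝ) (hc : 0 ≤ c) (hT : 0 ≤ T)
    (h : |s| ^ q ≤ c ^ q * T) : |s| ≤ c * T ^ (1 / q) := by
  have hq0 : 0 < q := by linarith
  have hu : 0 ≤ T ^ (1 / q) := Real.rpow_nonneg hT _
  have e : (c * T ^ (1 / q)) ^ q = c ^ q * T := by
    rw [Real.mul_rpow hc hu, ← Real.rpow_mul hT, one_div_mul_cancel hq0.ne', Real.rpow_one]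
  rw [← e] at h
  exact (Real.rpow_le_rpow_iff (abs_nonneg s) (mul_nonneg hc hu) hq0).1 h

theorem geom2 (K : ℕ) : ∑ k ∈ Finset.range K, (1 / 2 : ℝ) ^ k = 2 - 2 * (1 / 2) ^ K := by
  induction K with
  | zero => simp
  | succ K ih => rw [Finset.sum_range_succ, ih]; ring

theorem tele (f : ℕ → ℝ) (K : ℕ) :
    |f K - f 0| ≤ ∑ k ∈ Finset.range K, |f (k + 1) - f k| := by
  rw [← Finset.sum_range_sub f K]
  exact Finset.abs_sum_le_sum_abs _ _

/-! ### Theorem A -/

/-- **Theorem A** (helper59): absolute nearest-neighbour weights of total mass `≤ card X`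
dominating every pair. -/
theorem theoremA (d : X → X → ℝ) (d_nonneg : ∀ x y, 0 ≤ d x y) (d_self : ∀ x, d x x = 0)
    (d_symm : ∀ x y, d x y = d y x) (d_tri : ∀ x y z, d x z ≤ d x y + d y z)
    (q : ℝ) (hq : 1 ≤ q) :
    ∃ φ : X → X → ℝ, (∀ x y, 0 ≤ φ x y) ∧ (∀ x, ∑ y, φ x y ≤ 1) ∧
      ∀ (g : X → ℝ), (∀ x y, d x y = 0 → g x = g y) → ∀ i j,
        |g i - g j| ^ q ≤ 76 ^ q * d i j ^ q * ∑ x, ∑ y, φ x y * (|g x - g y| ^ q / d x y ^ q) := by
  classical
  have hq0 : 0 < q := by linarith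
  have h10 : (10 : ℝ) ≤ (10 : ℝ) ^ q := by
    have := Real.rpow_le_rpow_of_exponent_le (by norm_num : (1 : ℝ) ≤ 10) hq
    rwa [Real.rpow_one] at this
  set L : ℕ := ⌈2 * (10 : ℝ) ^ q⌉₊ with hLdef
  have hL1 : 2 * (10 : ℝ) ^ q ≤ (L : ℝ) := Nat.le_ceil _
  have hL2 : (L : ℝ) ≤ 3 * (10 : ℝ) ^ q := by
    have := (Nat.ceil_lt_add_one (by positivity : (0 : ℝ) ≤ 2 * (10 : ℝ) ^ q)).le
    linarith
  have hLtwo : 2 ≤ L := by
    have : (2 : ℝ) ≤ (L : ℝ) := by linarith
    exact_mod_cast this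
  have hL : 1 ≤ L := by omega
  refine ⟨phi d L, phi_nonneg d L, phi_sum_le d L hL, ?_⟩
  intro g hg i j
  change _ ≤ 76 ^ q * d i j ^ q * TT d L q g
  have hT := TT_nonneg d d_nonneg L q g
  rcases (d_nonneg i j).eq_or_lt with h0 | hρ
  · rw [hg i j h0.symm, sub_self, abs_zero, Real.zero_rpow hq0.ne']
    have : (0 : ℝ) ≤ (76 : ℝ) ^ q := Real.rpow_nonneg (by norm_num) _
    exact mul_nonneg (mul_nonneg this (Real.rpow_nonneg (d_nonneg i j) _)) hT
  · set ρ := d i j with hρdef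
    set N := Fintype.card X with hN
    have hNpos : 0 < N := Fintype.card_pos_iff.2 ⟨i⟩
    have hlargeN : Large d L i j (N - 1) := by
      intro x y _ _
      rw [nn_eq_univ]
      · exact Finset.mem_univ _
      · have h1 : N - 1 + 1 = N := by omega
        rw [h1]
        calc Fintype.card X = N := rfl
          _ ≤ 2 ^ N := Nat.lt_two_pow_self.le
          _ ≤ L ^ N := Nat.pow_le_pow_left hLtwo N
    have hex : ∃ k, Large d L i j k := ⟨N - 1, hlargeN⟩
    set ks := Nat.find hex with hks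
    have hlarge : Large d L i j ks := Nat.find_spec hex
    have hmin : ∀ k < ks, ¬ Large d L i j k := fun k hk => Nat.find_min hex hk
    have hksN : ks < N := by
      have := Nat.find_le (h := hex) hlargeN
      omega
    have hSi : Small d L ρ i ks := fun k hk z hz =>
      claim1 d d_nonneg d_symm d_tri L i j k (hmin k hk) z (Or.inl hz)
    have hSj : Small d L ρ j ks := fun k hk z hz =>
      claim1 d d_nonneg d_symm d_tri L i j k (hmin k hk) z (Or.inr hz)
    set u := (TT d L q g) ^ (1 / q) with hu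
    have hu0 : 0 ≤ u := Real.rpow_nonneg hT _
    have hstep : ∀ c, Small d L ρ c ks → ∀ k < ks,
        |EE d L c g (k + 1) - EE d L c g k| ≤ 4 * ρ * (1 / 2) ^ k * u := by
      intro c hS k hk
      have h1 := step_le d d_nonneg d_self d_tri L hL q hq g hg ρ hρ.le c ks hS k hk
        (lt_trans hk hksN)
      have h2 := step_arith q hq (L : ℝ) hL1 ρ hρ.le k
      exact root_le q hq _ _ _ (by positivity) hT
        (le_trans h1 (mul_le_mul_of_nonneg_right h2 hT))
    have hwalk : ∀ c, Small d L ρ c ks → |EE d L c g ks - EE d L c g 0| ≤ 8 * ρ * u := by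
      intro c hS
      refine le_trans (tele (EE d L c g) ks) ?_
      calc ∑ k ∈ Finset.range ks, |EE d L c g (k + 1) - EE d L c g k|
          ≤ ∑ k ∈ Finset.range ks, 4 * ρ * (1 / 2) ^ k * u :=
            Finset.sum_le_sum (fun k hk => hstep c hS k (Finset.mem_range.1 hk))
        _ = 4 * ρ * u * ∑ k ∈ Finset.range ks, (1 / 2 : ℝ) ^ k := by
            rw [Finset.mul_sum]
            apply Finset.sum_congr rfl
            intro k _
            ring
        _ ≤ 4 * ρ * u * 2 := by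
            apply mul_le_mul_of_nonneg_left _ (by positivity)
            rw [geom2]
            have : (0 : ℝ) ≤ (1 / 2) ^ ks := by positivity
            linarith
        _ = 8 * ρ * u := by ring
    have hmeet : |EE d L i g ks - EE d L j g ks| ≤ 60 * ρ * u := by
      have h1 := meet_le d d_nonneg d_symm d_tri L hL q hq g hg i j ks hksN hlarge
        (mu_supp d d_self d_tri L ρ i ks hSi ks le_rfl)
        (mu_supp d d_self d_tri L ρ j ks hSj ks le_rfl)
        (mu_le d d_self d_tri L hL ρ i ks hSi ks le_rfl)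
        (mu_le d d_self d_tri L hL ρ j ks hSj ks le_rfl)
      have h2 := meet_arith q hq (L : ℝ) hL1 hL2 ρ hρ.le ks
      exact root_le q hq _ _ _ (by positivity) hT
        (le_trans h1 (mul_le_mul_of_nonneg_right h2 hT))
    have hi := hwalk i hSi
    have hj := hwalk j hSj
    have htot : |g i - g j| ≤ 76 * ρ * u := by
      have e : g i - g j = -(EE d L i g ks - EE d L i g 0) + (EE d L i g ks - EE d L j g ks)
          + (EE d L j g ks - EE d L j g 0) := by
        rw [EE_zero, EE_zero]; ring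
      rw [e]
      have t1 := abs_add_le (-(EE d L i g ks - EE d L i g 0) + (EE d L i g ks - EE d L j g ks))
        (EE d L j g ks - EE d L j g 0)
      have t2 := abs_add_le (-(EE d L i g ks - EE d L i g 0)) (EE d L i g ks - EE d L j g ks)
      rw [abs_neg] at t2
      linarith
    have hfin : |g i - g j| ^ q ≤ (76 * ρ * u) ^ q :=
      Real.rpow_le_rpow (abs_nonneg _) htot hq0.le
    have e : (76 * ρ * u) ^ q = 76 ^ q * ρ ^ q * TT d L q g := by
      rw [Real.mul_rpow (by positivity) hu0, Real.mul_rpow (by norm_num) hρ.le, hu,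
        ← Real.rpow_mul hT, one_div_mul_cancel hq0.ne', Real.rpow_one]
    rw [e] at hfin
    exact hfin


end Vale.Agent.Lib.P249.Knn
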