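import Mathlib

/-!
# A Moore-type bound for graphs with unique short paths

`UniqueShortPaths G L`: two paths of `G` with the same endpoints and total length `≤ L` coincide
(this holds if every cycle of `G` has length `≥ L + 1`, `uniqueShortPaths_of_girth`).

* `moore`: if every vertex of `W` has at least three neighbours, all edges of `G` lie in `W`,
  and `UniqueShortPaths G (2 * K)` with `K ≥ 1`, then `2 ^ K < W.card`.
* `exists_low_degree`: if `Fintype.card V ≤ 2 ^ K` and `UniqueShortPaths G (2 * K)`, every
  nonempty vertex set `W` has a vertex with at most two neighbours inside `W`.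
* `card_adj_pairs_le`, `card_edgeFinset_le`: such a graph has at most `2 * card V` edges.

Mathlib only.
-/

namespace Vale.Agent.Lib.P249.Moore

open Finset SimpleGraph

variable {V : Type*} [Fintype V] [DecidableEq V]

/-- Unique short paths: two paths with the same endpoints and total length `≤ L` coincide. -/
def UniqueShortPaths (G : SimpleGraph V) (L : ℕ) : Prop :=
  ∀ (u v : V) (p q : G.Walk u v), p.IsPath → q.IsPath → p.length + q.length ≤ L → p = q

omit [Fintype V] in
theorem uniqueShortPaths_of_girth (G : SimpleGraph V) (L : ℕ)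
    (hg : ∀ (a : V) (c : G.Walk a a), c.IsCycle → L + 1 ≤ c.length) : UniqueShortPaths G L := by
  intro u v p q hp hq hlen
  by_contra hne
  obtain ⟨w, _, _, c, hc, hcl⟩ := hp.exists_isCycle_length_le_add_of_ne hq hne
  have := hg w c hc
  omega

omit [Fintype V] [DecidableEq V] in
theorem uniqueShortPaths_mono {G G' : SimpleGraph V} {L : ℕ} (h : G ≤ G')
    (hU : UniqueShortPaths G' L) : UniqueShortPaths G L := by
  intro u v p q hp hq hl
  have h1 := hU u v (p.mapLe h) (q.mapLe h) (hp.mapLe h) (hq.mapLe h) (by simpa using hl)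
  exact Walk.map_injective_of_injective (f := .ofLE h) Function.injective_id u v h1

omit [Fintype V] in
/-- A neighbour of the endpoint of a short path that lies on the path is its penultimate
vertex. -/
theorem eq_penultimate_of_adj_of_mem {G : SimpleGraph V} {L : ℕ} (hU : UniqueShortPaths G L)
    {v0 u w : V} (p : G.Walk v0 u) (hp : p.IsPath) (hlen : p.length + 1 ≤ L)
    (hadj : G.Adj u w) (hw : w ∈ p.support) : w = p.penultimate := by
  have hq1 : (p.dropUntil w hw).IsPath := hp.dropUntil hw
  have hq2 : (Walk.cons hadj.symm Walk.nil : G.Walk w u).IsPath := by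
    rw [Walk.cons_isPath_iff]
    refine ⟨Walk.IsPath.nil, ?_⟩
    simp only [Walk.support_nil, List.mem_singleton]
    exact hadj.ne'
  have hl := p.length_dropUntil_le_length hw
  have heq : p.dropUntil w hw = Walk.cons hadj.symm Walk.nil :=
    hU w u _ _ hq1 hq2 (by simp only [Walk.length_cons, Walk.length_nil]; omega)
  have hspec := p.take_spec hw
  rw [heq] at hspec
  have h3 := congrArg Walk.penultimate hspec
  rw [← Walk.concat_eq_append, Walk.penultimate_concat] at h3
  exact h3

open Classical in
/-- Endpoints of the paths of length `i` starting at `v0`. -/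
noncomputable def layer (G : SimpleGraph V) (v0 : V) (i : ℕ) : Finset V :=
  Finset.univ.filter (fun u => ∃ p : G.Walk v0 u, p.IsPath ∧ p.length = i)

omit [DecidableEq V] in
theorem mem_layer {G : SimpleGraph V} {v0 u : V} {i : ℕ} :
    u ∈ layer G v0 i ↔ ∃ p : G.Walk v0 u, p.IsPath ∧ p.length = i := by
  classical
  simp [layer]

open Classical in
theorem layer_step (G : SimpleGraph V) (v0 : V) (K : ℕ) (W : Finset V)
    (hU : UniqueShortPaths G (2 * K))
    (hdeg : ∀ u ∈ W, 3 ≤ (Finset.univ.filter (fun b => G.Adj u b)).card)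
    (i : ℕ) (hi : i + 1 ≤ K) (hlayer : layer G v0 i ⊆ W) :
    2 * (layer G v0 i).card ≤ (layer G v0 (i + 1)).card := by
  -- the chosen path to `u` and the neighbours of `u` off that path
  let N' : V → Finset V := fun u =>
    if h : ∃ p : G.Walk v0 u, p.IsPath ∧ p.length = i then
      (Finset.univ.filter (fun b => G.Adj u b)) \ (Classical.choose h).support.toFinset
    else ∅
  have hN' : ∀ u (h : ∃ p : G.Walk v0 u, p.IsPath ∧ p.length = i),
      N' u = (Finset.univ.filter (fun b => G.Adj u b)) \ (Classical.choose h).support.toFinset := by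
    intro u h
    simp only [N', dif_pos h]
  have c1 : ∀ u ∈ layer G v0 i, 2 ≤ (N' u).card := by
    intro u hu
    have h := mem_layer.1 hu
    rw [hN' u h]
    obtain ⟨hp, hlen⟩ := Classical.choose_spec h
    set p := Classical.choose h with hpdef
    have hsub : (Finset.univ.filter (fun b => G.Adj u b)) ∩ p.support.toFinset
        ⊆ {p.penultimate} := by
      intro w hw
      rw [Finset.mem_inter, Finset.mem_filter, List.mem_toFinset] at hw
      rw [Finset.mem_singleton]
      exact eq_penultimate_of_adj_of_mem hU p hp (by omega) hw.1.2 hw.2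
    have h1 := Finset.card_le_card hsub
    rw [Finset.card_singleton] at h1
    have h2 := Finset.card_sdiff_add_card_inter (Finset.univ.filter (fun b => G.Adj u b))
      p.support.toFinset
    have h3 := hdeg u (hlayer hu)
    omega
  have c2 : ∀ u ∈ layer G v0 i, N' u ⊆ layer G v0 (i + 1) := by
    intro u hu w hw
    have h := mem_layer.1 hu
    rw [hN' u h] at hw
    obtain ⟨hp, hlen⟩ := Classical.choose_spec h
    set p := Classical.choose h with hpdef
    rw [Finset.mem_sdiff, Finset.mem_filter, List.mem_toFinset] at hw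
    rw [mem_layer]
    exact ⟨p.concat hw.1.2, hp.concat hw.2 hw.1.2, by rw [Walk.length_concat, hlen]⟩
  have c3 : ∀ u ∈ layer G v0 i, ∀ u' ∈ layer G v0 i, u ≠ u' → Disjoint (N' u) (N' u') := by
    intro u hu u' hu' hne
    rw [Finset.disjoint_left]
    intro w hw hw'
    have h := mem_layer.1 hu
    have h' := mem_layer.1 hu'
    rw [hN' u h] at hw
    rw [hN' u' h'] at hw'
    obtain ⟨hp, hlen⟩ := Classical.choose_spec h
    obtain ⟨hp', hlen'⟩ := Classical.choose_spec h'
    set p := Classical.choose h with hpdef
    set p' := Classical.choose h' with hpdef'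
    rw [Finset.mem_sdiff, Finset.mem_filter, List.mem_toFinset] at hw hw'
    have heq : p.concat hw.1.2 = p'.concat hw'.1.2 :=
      hU v0 w _ _ (hp.concat hw.2 hw.1.2) (hp'.concat hw'.2 hw'.1.2)
        (by rw [Walk.length_concat, Walk.length_concat, hlen, hlen']; omega)
    obtain ⟨huu, _⟩ := Walk.concat_inj heq
    exact hne huu
  calc 2 * (layer G v0 i).card = ∑ _u ∈ layer G v0 i, 2 := by
        rw [Finset.sum_const, smul_eq_mul, mul_comm]
    _ ≤ ∑ u ∈ layer G v0 i, (N' u).card := Finset.sum_le_sum c1
    _ = ((layer G v0 i).biUnion N').card := by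
        rw [Finset.card_biUnion]
        intro u hu u' hu' hne
        exact c3 u hu u' hu' hne
    _ ≤ (layer G v0 (i + 1)).card := by
        apply Finset.card_le_card
        intro w hw
        rw [Finset.mem_biUnion] at hw
        obtain ⟨u, hu, hw⟩ := hw
        exact c2 u hu hw

open Classical in
/-- Moore-type bound. -/
theorem moore (G : SimpleGraph V) (K : ℕ) (hK : 1 ≤ K) (W : Finset V) (v0 : V) (hv0 : v0 ∈ W)
    (hW : ∀ a b, G.Adj a b → b ∈ W)
    (hdeg : ∀ u ∈ W, 3 ≤ (Finset.univ.filter (fun b => G.Adj u b)).card)
    (hU : UniqueShortPaths G (2 * K)) : 2 ^ K < W.card := by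
  have hsub : ∀ i, layer G v0 i ⊆ W := by
    intro i u hu
    obtain ⟨p, hp, hlen⟩ := mem_layer.1 hu
    by_cases hnil : p.Nil
    · have := hnil.eq
      subst this
      exact hv0
    · exact hW _ _ (p.adj_penultimate hnil)
  have hcard : ∀ i, i ≤ K → 2 ^ i ≤ (layer G v0 i).card := by
    intro i
    induction i with
    | zero =>
      intro _
      have : v0 ∈ layer G v0 0 := mem_layer.2 ⟨Walk.nil, Walk.IsPath.nil, rfl⟩
      simpa using Finset.card_pos.2 ⟨v0, this⟩
    | succ i ih =>
      intro hi
      have h1 := ih (by omega)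
      have h2 := layer_step G v0 K W hU hdeg i hi (hsub i)
      calc 2 ^ (i + 1) = 2 * 2 ^ i := by ring
        _ ≤ 2 * (layer G v0 i).card := by omega
        _ ≤ (layer G v0 (i + 1)).card := h2
  have hnot : v0 ∉ layer G v0 K := by
    intro h
    obtain ⟨p, hp, hlen⟩ := mem_layer.1 h
    have hnil := Walk.isPath_iff_nil.1 hp
    have h0 := Walk.length_eq_zero_iff.2 hnil
    omega
  have h3 : insert v0 (layer G v0 K) ⊆ W := by
    intro x hx
    rw [Finset.mem_insert] at hx
    rcases hx with rfl | hx
    · exact hv0
    · exact hsub K hx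
  have h4 := Finset.card_le_card h3
  rw [Finset.card_insert_of_notMem hnot] at h4
  have h5 := hcard K le_rfl
  omega

/-- The restriction of a graph to a vertex set (on the same vertex type). -/
def restr (G : SimpleGraph V) (W : Finset V) : SimpleGraph V where
  Adj a b := G.Adj a b ∧ a ∈ W ∧ b ∈ W
  symm := ⟨fun _ _ h => ⟨h.1.symm, h.2.2, h.2.1⟩⟩
  loopless := ⟨fun a h => G.loopless.irrefl a h.1⟩

omit [Fintype V] [DecidableEq V] in
theorem restr_adj (G : SimpleGraph V) (W : Finset V) (a b : V) :
    (restr G W).Adj a b ↔ G.Adj a b ∧ a ∈ W ∧ b ∈ W := Iff.rfl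

omit [Fintype V] [DecidableEq V] in
theorem restr_le (G : SimpleGraph V) (W : Finset V) : restr G W ≤ G :=
  fun a b h => ((restr_adj G W a b).1 h).1

open Classical in
/-- Degeneracy: every nonempty vertex set has a vertex with at most two neighbours inside it. -/
theorem exists_low_degree (G : SimpleGraph V) (K : ℕ) (hK : 1 ≤ K)
    (hcard : Fintype.card V ≤ 2 ^ K) (hU : UniqueShortPaths G (2 * K))
    (W : Finset V) (hne : W.Nonempty) :
    ∃ v ∈ W, (W.filter (fun b => G.Adj v b)).card ≤ 2 := by
  by_contra hcon
  push Not at hcon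
  obtain ⟨v0, hv0⟩ := hne
  have hdeg : ∀ u ∈ W, 3 ≤ (Finset.univ.filter (fun b => (restr G W).Adj u b)).card := by
    intro u hu
    have h1 := hcon u hu
    have h2 : Finset.univ.filter (fun b => (restr G W).Adj u b) = W.filter (fun b => G.Adj u b) := by
      ext b
      rw [Finset.mem_filter, Finset.mem_filter, restr_adj]
      constructor
      · rintro ⟨_, h, _, hb⟩
        exact ⟨hb, h⟩
      · rintro ⟨hb, h⟩
        exact ⟨Finset.mem_univ b, h, hu, hb⟩
    rw [h2]
    omega
  have h := moore (restr G W) K hK W v0 hv0
    (fun a b h => ((restr_adj G W a b).1 h).2.2) hdeg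
    (uniqueShortPaths_mono (restr_le G W) hU)
  have h2 : W.card ≤ Fintype.card V := Finset.card_le_univ W
  omega

open Classical in
/-- The number of ordered adjacent pairs inside `W` is at most `4 * W.card`. -/
theorem card_adj_pairs_le_aux (G : SimpleGraph V) (K : ℕ) (hK : 1 ≤ K)
    (hcard : Fintype.card V ≤ 2 ^ K) (hU : UniqueShortPaths G (2 * K)) :
    ∀ (n : ℕ) (W : Finset V), W.card = n →
      ((W ×ˢ W).filter (fun p : V × V => G.Adj p.1 p.2)).card ≤ 4 * n := by
  intro n
  induction n with
  | zero =>
    intro W hW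
    rw [Finset.card_eq_zero] at hW
    subst hW
    simp
  | succ n ih =>
    intro W hW
    have hne : W.Nonempty := by
      rw [← Finset.card_pos]; omega
    obtain ⟨v, hv, hdeg⟩ := exists_low_degree G K hK hcard hU W hne
    have hW' : (W.erase v).card = n := by
      rw [Finset.card_erase_of_mem hv]; omega
    have h1 := ih (W.erase v) hW'
    have hsub : (W ×ˢ W).filter (fun p : V × V => G.Adj p.1 p.2)
        ⊆ (((W.erase v) ×ˢ (W.erase v)).filter (fun p : V × V => G.Adj p.1 p.2)
            ∪ (W.filter (fun b => G.Adj v b)).image (fun b => (v, b)))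
            ∪ (W.filter (fun b => G.Adj v b)).image (fun b => (b, v)) := by
      rintro ⟨a, b⟩ hab
      rw [Finset.mem_filter, Finset.mem_product] at hab
      obtain ⟨⟨ha, hb⟩, hadj⟩ := hab
      simp only at ha hb hadj
      rw [Finset.mem_union, Finset.mem_union]
      by_cases hav : a = v
      · left; right
        rw [Finset.mem_image]
        refine ⟨b, ?_, ?_⟩
        · rw [Finset.mem_filter]
          exact ⟨hb, hav ▸ hadj⟩
        · rw [hav]
      · by_cases hbv : b = v
        · right
          rw [Finset.mem_image]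
          refine ⟨a, ?_, ?_⟩
          · rw [Finset.mem_filter]
            exact ⟨ha, (hbv ▸ hadj).symm⟩
          · rw [hbv]
        · left; left
          rw [Finset.mem_filter, Finset.mem_product]
          exact ⟨⟨Finset.mem_erase.2 ⟨hav, ha⟩, Finset.mem_erase.2 ⟨hbv, hb⟩⟩, hadj⟩
    have h2 := Finset.card_le_card hsub
    have h3 := Finset.card_union_le
      (((W.erase v) ×ˢ (W.erase v)).filter (fun p : V × V => G.Adj p.1 p.2)
            ∪ (W.filter (fun b => G.Adj v b)).image (fun b => (v, b)))
      ((W.filter (fun b => G.Adj v b)).image (fun b => (b, v)))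
    have h4 := Finset.card_union_le
      (((W.erase v) ×ˢ (W.erase v)).filter (fun p : V × V => G.Adj p.1 p.2))
      ((W.filter (fun b => G.Adj v b)).image (fun b => (v, b)))
    have h5 : ((W.filter (fun b => G.Adj v b)).image (fun b => (v, b))).card
        ≤ (W.filter (fun b => G.Adj v b)).card := Finset.card_image_le
    have h6 : ((W.filter (fun b => G.Adj v b)).image (fun b => (b, v))).card
        ≤ (W.filter (fun b => G.Adj v b)).card := Finset.card_image_le
    omega

open Classical in
/-- A graph on at most `2 ^ K` vertices with unique paths of total length `≤ 2 K` has at most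
`4 * card V` ordered adjacent pairs. -/
theorem card_adj_pairs_le (G : SimpleGraph V) (K : ℕ) (hK : 1 ≤ K)
    (hcard : Fintype.card V ≤ 2 ^ K) (hU : UniqueShortPaths G (2 * K)) :
    ((Finset.univ : Finset (V × V)).filter (fun p : V × V => G.Adj p.1 p.2)).card
      ≤ 4 * Fintype.card V := by
  have h := card_adj_pairs_le_aux G K hK hcard hU (Fintype.card V) Finset.univ Finset.card_univ
  rwa [Finset.univ_product_univ] at h

/-- A graph on at most `2 ^ K` vertices with unique paths of total length `≤ 2 K` has at most
`2 * card V` edges. -/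
theorem card_edgeFinset_le (G : SimpleGraph V) [Fintype G.edgeSet] (K : ℕ) (hK : 1 ≤ K)
    (hcard : Fintype.card V ≤ 2 ^ K) (hU : UniqueShortPaths G (2 * K)) :
    G.edgeFinset.card ≤ 2 * Fintype.card V := by
  classical
  have h1 := card_adj_pairs_le G K hK hcard hU
  have h2 : ((Finset.univ : Finset (V × V)).filter (fun p : V × V => G.Adj p.1 p.2)).card
      = ∑ v, G.degree v := by
    rw [Finset.card_filter, ← Finset.univ_product_univ, Finset.sum_product]
    apply Finset.sum_congr rfl
    intro a _
    rw [← Finset.card_filter, ← SimpleGraph.card_neighborFinset_eq_degree,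
      SimpleGraph.neighborFinset_eq_filter]
  have h3 := G.sum_degrees_eq_twice_card_edges
  rw [h2] at h1
  have h5 : (∑ v, G.degree v) = 2 * G.edgeFinset.card := by
    rw [h3]
    congr 2
    ext e
    simp
  omega

end Vale.Agent.Lib.P249.Moore
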