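import Vale.Agent.Lib.P249.helper96.Knn

/-!
# P249: pair sensitivities of total mass `≤ 76^p n` for `n` points of `ℓ_p^m`

Application of `Knn.theoremA` to the pseudometric `d i j = dist (x i) (x j)` on the index set and
the coordinate functions `g_k i = x i k`.
-/

namespace Vale.Agent.Lib.P249.Knn

open Finset

theorem toReal_ge_one (p : ENNReal) [Fact (1 ≤ p)] (hp : p ≠ ⊤) : 1 ≤ p.toReal := by
  have hp1 : (1 : ENNReal) ≤ p := Fact.out
  have := ENNReal.toReal_mono hp hp1
  simpa using this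

theorem dist_rpow (p : ENNReal) [Fact (1 ≤ p)] (hp : p ≠ ⊤) (m : ℕ)
    (x y : PiLp p (fun _ : Fin m => ℝ)) :
    dist x y ^ p.toReal = ∑ k, |x k - y k| ^ p.toReal := by
  have hq : 0 < p.toReal := by
    have := toReal_ge_one p hp
    linarith
  rw [PiLp.dist_eq_sum hq]
  simp only [Real.dist_eq]
  rw [← Real.rpow_mul (Finset.sum_nonneg (fun k _ => Real.rpow_nonneg (abs_nonneg _) _)),
    one_div_mul_cancel hq.ne', Real.rpow_one]

/-- Pair sensitivities with total mass at most `76^p n` (no logarithm), in the shape of the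
hypothesis of the sampling assembly with log-exponent `0`. -/
theorem sens_knn (p : ENNReal) [Fact (1 ≤ p)] (hp : p ≠ ⊤) (n m : ℕ) (_hn : 2 ≤ n)
    (x : Fin n → PiLp p (fun _ : Fin m => ℝ)) :
    ∃ s : Fin m → ℝ, (∀ k, 0 ≤ s k) ∧
      (∀ k i j, |x i k - x j k| ^ p.toReal ≤ s k * ∑ k', |x i k' - x j k'| ^ p.toReal) ∧
      ∑ k, s k ≤ 76 ^ p.toReal * n * Real.log n ^ (0 : ℝ) := by
  have hq1 := toReal_ge_one p hp
  set q := p.toReal with hq
  obtain ⟨φ, hφ0, hφ1, hA⟩ := theoremA (fun a b : Fin n => dist (x a) (x b))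
    (fun a b => dist_nonneg) (fun a => dist_self _) (fun a b => dist_comm _ _)
    (fun a b c => dist_triangle _ _ _) q hq1
  have h76 : (0 : ℝ) ≤ (76 : ℝ) ^ q := Real.rpow_nonneg (by norm_num) _
  have hterm0 : ∀ (k : Fin m) (a b : Fin n),
      0 ≤ φ a b * (|x a k - x b k| ^ q / dist (x a) (x b) ^ q) := fun k a b =>
    mul_nonneg (hφ0 a b)
      (div_nonneg (Real.rpow_nonneg (abs_nonneg _) _) (Real.rpow_nonneg dist_nonneg _))
  refine ⟨fun k => 76 ^ q * ∑ a, ∑ b, φ a b * (|x a k - x b k| ^ q / dist (x a) (x b) ^ q),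
    ?_, ?_, ?_⟩
  · intro k
    exact mul_nonneg h76
      (Finset.sum_nonneg (fun a _ => Finset.sum_nonneg (fun b _ => hterm0 k a b)))
  · intro k i j
    have h := hA (fun a => x a k) (fun a b hab => by rw [eq_of_dist_eq_zero hab]) i j
    simp only at h
    rw [dist_rpow p hp m (x i) (x j)] at h
    calc |x i k - x j k| ^ q
        ≤ 76 ^ q * (∑ k', |x i k' - x j k'| ^ q) *
            ∑ a, ∑ b, φ a b * (|x a k - x b k| ^ q / dist (x a) (x b) ^ q) := h
      _ = (76 ^ q * ∑ a, ∑ b, φ a b * (|x a k - x b k| ^ q / dist (x a) (x b) ^ q)) *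
            ∑ k', |x i k' - x j k'| ^ q := by ring
  · rw [Real.rpow_zero, mul_one, ← Finset.mul_sum]
    apply mul_le_mul_of_nonneg_left _ h76
    rw [Finset.sum_comm]
    have h1 : ∀ a ∈ (Finset.univ : Finset (Fin n)),
        ∑ k, ∑ b, φ a b * (|x a k - x b k| ^ q / dist (x a) (x b) ^ q) ≤ 1 := by
      intro a _
      rw [Finset.sum_comm]
      refine le_trans ?_ (hφ1 a)
      apply Finset.sum_le_sum
      intro b _
      rw [← Finset.mul_sum, ← Finset.sum_div, ← dist_rpow p hp m (x a) (x b)]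
      have : dist (x a) (x b) ^ q / dist (x a) (x b) ^ q ≤ 1 := div_self_le_one _
      calc φ a b * (dist (x a) (x b) ^ q / dist (x a) (x b) ^ q) ≤ φ a b * 1 :=
            mul_le_mul_of_nonneg_left this (hφ0 a b)
        _ = φ a b := mul_one _
    calc ∑ a, ∑ k, ∑ b, φ a b * (|x a k - x b k| ^ q / dist (x a) (x b) ^ q)
        ≤ ∑ _a : Fin n, (1 : ℝ) := Finset.sum_le_sum h1
      _ = n := by simp

end Vale.Agent.Lib.P249.Knn
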