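import Vale.Agent.Lib.P249.helper21.LinEps
import Vale.Agent.Lib.P249.helper96.Sens

/-!
# P249: `n log n` coordinates for every `1 ≤ p < ∞` (independent backup copy of the assembly)

`Knn.sens_knn` (total pair sensitivity at most `76^p n`) fed into `H21.lin_eps_of_sens` with
`B = 76^p`, `a = 0`.
-/

namespace Vale.Agent.Lib.P249.Knn

open Finset
open scoped ENNReal

theorem nlogn_backup (p : ℝ≥0∞) [Fact (1 ≤ p)] (hp : p ≠ ⊤)
    (ε : ℝ) (hε : 0 < ε) (hε1 : ε ≤ 1) (n m : ℕ) (hn : 2 ≤ n)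
    (x : Fin n → PiLp p (fun _ : Fin m => ℝ)) :
    ∃ (d : ℕ) (κ : Fin d → Fin m) (c : Fin d → ℝ),
      (d : ℝ) ≤ 289 * 76 ^ p.toReal / ε ^ 2 * n * Real.log n ∧
      ∀ i j,
        dist (x i) (x j) ≤
            dist (WithLp.toLp p (fun l => c l * x i (κ l)) : PiLp p (fun _ : Fin d => ℝ))
              (WithLp.toLp p (fun l => c l * x j (κ l))) ∧
          dist (WithLp.toLp p (fun l => c l * x i (κ l)) : PiLp p (fun _ : Fin d => ℝ))
              (WithLp.toLp p (fun l => c l * x j (κ l))) ≤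
            (1 + ε) * dist (x i) (x j) := by
  have hq1 : 1 ≤ p.toReal := toReal_ge_one p hp
  have hB1 : (1 : ℝ) ≤ 76 ^ p.toReal := Real.one_le_rpow (by norm_num) (by linarith)
  have hB0 : (0 : ℝ) ≤ 76 ^ p.toReal := by linarith
  obtain ⟨d, κ, c, hd, hdist⟩ :=
    Vale.Agent.Lib.P249.H21.lin_eps_of_sens p hp (76 ^ p.toReal) 0 hB0 le_rfl
      (fun n m hn x => sens_knn p hp n m hn x) ε hε hε1 n m hn x
  refine ⟨d, κ, c, ?_, hdist⟩
  have hn' : (2 : ℝ) ≤ n := by exact_mod_cast hn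
  have hlog2 : (1 : ℝ) / 2 < Real.log 2 := by
    have := Real.log_two_gt_d9
    linarith
  have hlogn : 0 < Real.log n := by
    have : Real.log 2 ≤ Real.log n := Real.log_le_log (by norm_num) hn'
    linarith
  rw [zero_add, Real.rpow_one, Real.rpow_one] at hd
  have hB76 : (76 : ℝ) ≤ 76 ^ p.toReal := by
    have := Real.rpow_le_rpow_of_exponent_le (show (1 : ℝ) ≤ 76 by norm_num) hq1
    rwa [Real.rpow_one] at this
  have h1 : 1 / Real.log 2 ≤ 76 ^ p.toReal := by
    rw [div_le_iff₀ (by linarith)]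
    nlinarith
  have hn0 : (0 : ℝ) ≤ n := by linarith
  have hε2 : 0 < ε ^ 2 := by positivity
  refine hd.trans ?_
  apply mul_le_mul_of_nonneg_right _ hlogn.le
  apply mul_le_mul_of_nonneg_right _ hn0
  apply div_le_div_of_nonneg_right _ hε2.le
  linarith

end Vale.Agent.Lib.P249.Knn
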