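import Mathlib

/-!
# P249, lemma (B): importance sampling of coordinates (derandomised Chernoff bound)

Pure finite sums: if nonnegative weights `w k f` (coordinates `k`, test functions `f`) have
column sums `v f` and `w k f ≤ s k * v f` with `S = ∑ k, s k`, then `d ≥ 8 S log(2|F|+1)/ε²`
sampled coordinates (with the importance weights `S / (d * s k)`) reproduce every `v f` up to a
factor `1 ± ε`.
-/

namespace Vale.Agent.Lib.P249.H96Sampling

open Finset

theorem exp_upper_aux (ε : ℝ) (hε : 0 < ε) (hε1 : ε ≤ 1) :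
    Real.exp (ε / 4) - 1 - ε / 4 * (1 + ε) ≤ -(ε ^ 2 / 8) := by
  have h1 : Real.exp (ε / 4) ≤ 1 / (1 - ε / 4) :=
    Real.exp_bound_div_one_sub_of_interval (by positivity) (by linarith)
  have h2 : 1 / (1 - ε / 4) ≤ 1 + ε / 4 + 2 * (ε / 4) ^ 2 := by
    rw [div_le_iff₀ (by linarith)]
    nlinarith [mul_nonneg (sq_nonneg ε) (by linarith : (0 : ℝ) ≤ 1 - ε / 2)]
  have h3 : 1 + ε / 4 + 2 * (ε / 4) ^ 2 - 1 - ε / 4 * (1 + ε) = -(ε ^ 2 / 8) := by ring
  linarith

theorem exp_lower_aux (ε : ℝ) (hε : 0 < ε) :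
    Real.exp (-(ε / 2)) - 1 + ε / 2 * (1 - ε) ≤ -(ε ^ 2 / 4) := by
  have h0 : ε / 2 + 1 ≤ Real.exp (ε / 2) := Real.add_one_le_exp _
  have h1 : Real.exp (-(ε / 2)) ≤ 1 / (ε / 2 + 1) := by
    rw [Real.exp_neg, ← one_div]
    exact one_div_le_one_div_of_le (by positivity) h0
  have h2 : 1 / (ε / 2 + 1) ≤ 1 - ε / 2 + (ε / 2) ^ 2 := by
    rw [div_le_iff₀ (by positivity)]
    nlinarith [pow_pos hε 3]
  have h3 : 1 - ε / 2 + (ε / 2) ^ 2 - 1 + ε / 2 * (1 - ε) = -(ε ^ 2 / 4) := by ring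
  linarith

theorem mgf_le {K : Type*} [Fintype K] (P Y : K → ℝ) (hP0 : ∀ k, 0 ≤ P k)
    (hP1 : ∑ k, P k = 1) (hY0 : ∀ k, 0 ≤ Y k) (hY1 : ∀ k, Y k ≤ 1) (θ : ℝ) :
    ∑ k, P k * Real.exp (θ * Y k) ≤ Real.exp ((Real.exp θ - 1) * ∑ k, P k * Y k) := by
  have hconv : ∀ y : ℝ, 0 ≤ y → y ≤ 1 → Real.exp (θ * y) ≤ 1 + (Real.exp θ - 1) * y := by
    intro y hy0 hy1
    have h := convexOn_exp.2 (Set.mem_univ (0 : ℝ)) (Set.mem_univ θ)
      (by linarith : (0 : ℝ) ≤ 1 - y) hy0 (by ring : (1 - y) + y = 1)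
    simp only [smul_eq_mul, mul_zero, zero_add, Real.exp_zero, mul_one] at h
    rw [mul_comm θ y]
    linarith
  calc ∑ k, P k * Real.exp (θ * Y k) ≤ ∑ k, P k * (1 + (Real.exp θ - 1) * Y k) :=
        Finset.sum_le_sum
          (fun k _ => mul_le_mul_of_nonneg_left (hconv _ (hY0 k) (hY1 k)) (hP0 k))
    _ = (Real.exp θ - 1) * ∑ k, P k * Y k + 1 := by
        have hk : ∀ k, P k * (1 + (Real.exp θ - 1) * Y k)
            = (Real.exp θ - 1) * (P k * Y k) + P k := fun k => by ring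
        simp only [hk]
        rw [Finset.sum_add_distrib, ← Finset.mul_sum, hP1]
    _ ≤ _ := Real.add_one_le_exp _

theorem sum_prod_exp {K : Type*} [Fintype K] (P Y : K → ℝ) (θ a : ℝ) (d : ℕ) :
    ∑ κ : Fin d → K, (∏ l, P (κ l)) * Real.exp (θ * ∑ l, Y (κ l) - a)
      = Real.exp (-a) * (∑ k, P k * Real.exp (θ * Y k)) ^ d := by
  rw [Fintype.sum_pow, Finset.mul_sum]
  refine Finset.sum_congr rfl (fun κ _ => ?_)
  rw [sub_eq_add_neg, Real.exp_add, Finset.mul_sum, Real.exp_sum, Finset.prod_mul_distrib]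
  ring

theorem tail_le {K : Type*} [Fintype K] (P Y : K → ℝ) (hP0 : ∀ k, 0 ≤ P k)
    (hP1 : ∑ k, P k = 1) (hY0 : ∀ k, 0 ≤ Y k) (hY1 : ∀ k, Y k ≤ 1) (θ a : ℝ) (d : ℕ) :
    ∑ κ : Fin d → K, (∏ l, P (κ l)) * Real.exp (θ * ∑ l, Y (κ l) - a)
      ≤ Real.exp ((d : ℝ) * ((Real.exp θ - 1) * ∑ k, P k * Y k) - a) := by
  rw [sum_prod_exp]
  have h := mgf_le P Y hP0 hP1 hY0 hY1 θ
  have h0 : 0 ≤ ∑ k, P k * Real.exp (θ * Y k) :=
    Finset.sum_nonneg (fun k _ => mul_nonneg (hP0 k) (Real.exp_pos _).le)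
  calc Real.exp (-a) * (∑ k, P k * Real.exp (θ * Y k)) ^ d
      ≤ Real.exp (-a) * (Real.exp ((Real.exp θ - 1) * ∑ k, P k * Y k)) ^ d :=
        mul_le_mul_of_nonneg_left (pow_le_pow_left₀ h0 h d) (Real.exp_pos _).le
    _ = _ := by
        rw [← Real.exp_nat_mul, ← Real.exp_add]; congr 1; ring

/-- **Lemma (B), importance sampling.**  `K` = coordinates, `F` = test functions (pairs of points),
`w k f ≥ 0` with column sums `v f`, sensitivities `s k` with `w k f ≤ s k * v f`, `S = ∑ k, s k`.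
If `d ≥ 8 S log(2|F|+1)/ε²` then some choice `κ` of `d` coordinates, reweighted by
`S / (d * s (κ l))`, reproduces every `v f` up to the factors `1 ± ε`. -/
theorem sampling {K F : Type*} [Fintype K] [Fintype F]
    (w : K → F → ℝ) (s : K → ℝ) (v : F → ℝ) (S : ℝ)
    (hw : ∀ k f, 0 ≤ w k f) (hv : ∀ f, v f = ∑ k, w k f)
    (hs0 : ∀ k, 0 ≤ s k) (hs : ∀ k f, w k f ≤ s k * v f)
    (hS : S = ∑ k, s k) (hSpos : 0 < S)
    (ε : ℝ) (hε : 0 < ε) (hε1 : ε ≤ 1)
    (d : ℕ) (hd : 8 * S * Real.log (2 * (Fintype.card F : ℝ) + 1) ≤ ε ^ 2 * d) :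
    ∃ κ : Fin d → K, ∀ f,
      (1 - ε) * v f ≤ ∑ l, w (κ l) f * (S / ((d : ℝ) * s (κ l))) ∧
      ∑ l, w (κ l) f * (S / ((d : ℝ) * s (κ l))) ≤ (1 + ε) * v f := by
  classical
  have hK : Nonempty K := by
    by_contra h
    rw [not_nonempty_iff] at h
    rw [hS, Finset.univ_eq_empty, Finset.sum_empty] at hSpos
    exact lt_irrefl _ hSpos
  rcases isEmpty_or_nonempty F with hF | hF
  · exact ⟨fun _ => Classical.arbitrary K, fun f => isEmptyElim f⟩
  have hcard : (1 : ℝ) ≤ (Fintype.card F : ℝ) := by exact_mod_cast Fintype.card_pos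
  have hlog : 0 < Real.log (2 * (Fintype.card F : ℝ) + 1) := Real.log_pos (by linarith)
  have hdpos : (0 : ℝ) < d := by
    by_contra h
    have h0 : (d : ℝ) = 0 := le_antisymm (not_lt.mp h) (Nat.cast_nonneg d)
    rw [h0, mul_zero] at hd
    have : 0 < 8 * S * Real.log (2 * (Fintype.card F : ℝ) + 1) := by positivity
    linarith
  have hv0 : ∀ f, 0 ≤ v f := fun f => by
    rw [hv f]; exact Finset.sum_nonneg (fun k _ => hw k f)
  -- sampling probabilities
  set P : K → ℝ := fun k => s k / S with hPdef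
  have hP0 : ∀ k, 0 ≤ P k := fun k => div_nonneg (hs0 k) hSpos.le
  have hP1 : ∑ k, P k = 1 := by
    simp only [hPdef]; rw [← Finset.sum_div, ← hS, div_self hSpos.ne']
  -- normalised terms
  set Y : F → K → ℝ := fun f k => w k f / (s k * v f) with hYdef
  have hY0 : ∀ f k, 0 ≤ Y f k := fun f k =>
    div_nonneg (hw k f) (mul_nonneg (hs0 k) (hv0 f))
  have hY1 : ∀ f k, Y f k ≤ 1 := fun f k =>
    div_le_one_of_le₀ (hs k f) (mul_nonneg (hs0 k) (hv0 f))
  have hw0 : ∀ k f, s k = 0 → w k f = 0 := by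
    intro k f hk
    have h := hs k f
    rw [hk, zero_mul] at h
    exact le_antisymm h (hw k f)
  have hmean : ∀ f, 0 < v f → ∑ k, P k * Y f k = 1 / S := by
    intro f hf
    have hk : ∀ k, P k * Y f k = w k f / (S * v f) := by
      intro k
      simp only [hPdef, hYdef]
      by_cases hk : s k = 0
      · rw [hw0 k f hk, hk]; simp
      · field_simp
    simp only [hk]
    rw [← Finset.sum_div, ← hv f]
    field_simp
  have hsum : ∀ (κ : Fin d → K) f, 0 < v f →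
      ∑ l, w (κ l) f * (S / ((d : ℝ) * s (κ l))) = S * v f / d * ∑ l, Y f (κ l) := by
    intro κ f hf
    rw [Finset.mul_sum]
    refine Finset.sum_congr rfl (fun l _ => ?_)
    simp only [hYdef]
    by_cases hk : s (κ l) = 0
    · rw [hw0 _ f hk, hk]; simp
    · field_simp
  by_contra hcon
  push Not at hcon
  have hθ0 : (0 : ℝ) ≤ ε / 4 := by positivity
  have hlam0 : (0 : ℝ) ≤ ε / 2 := by positivity
  set U : F → (Fin d → K) → ℝ := fun f κ =>
    Real.exp (ε / 4 * ∑ l, Y f (κ l) - ε / 4 * ((1 + ε) * d / S)) with hUdef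
  set L : F → (Fin d → K) → ℝ := fun f κ =>
    Real.exp (-(ε / 2) * ∑ l, Y f (κ l) - -(ε / 2 * ((1 - ε) * d / S))) with hLdef
  set Fpos : Finset F := Finset.univ.filter (fun f => 0 < v f) with hFpos
  -- every sample is bad for some `f`, which makes one of the two exponentials at least one
  have hbad : ∀ κ : Fin d → K, 1 ≤ ∑ f ∈ Fpos, (U f κ + L f κ) := by
    intro κ
    obtain ⟨f, hf⟩ := hcon κ
    have hvf : 0 < v f := by
      rcases (hv0 f).lt_or_eq with h | h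
      · exact h
      · exfalso
        have hz : ∀ k, w k f = 0 := fun k => by
          have h1 := hs k f
          rw [← h, mul_zero] at h1
          exact le_antisymm h1 (hw k f)
        have h1 : ∑ l, w (κ l) f * (S / ((d : ℝ) * s (κ l))) = 0 :=
          Finset.sum_eq_zero (fun l _ => by rw [hz]; ring)
        rw [h1, ← h] at hf
        have h2 := hf (by simp)
        simp at h2
    have hfmem : f ∈ Fpos := by simp [hFpos, hvf]
    have hnn : ∀ g ∈ Fpos, 0 ≤ U g κ + L g κ := fun g _ =>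
      add_nonneg (Real.exp_pos _).le (Real.exp_pos _).le
    refine le_trans ?_ (Finset.single_le_sum hnn hfmem)
    rw [hsum κ f hvf] at hf
    have hc : 0 < S * v f / d := by positivity
    by_cases hlo : (1 - ε) * v f ≤ S * v f / d * ∑ l, Y f (κ l)
    · have hhi := hf hlo
      have h1 : (1 + ε) * d / S < ∑ l, Y f (κ l) := by
        have e : (1 + ε) * d / S = (1 + ε) * v f / (S * v f / d) := by field_simp
        rw [e, div_lt_iff₀ hc]
        exact lt_of_lt_of_eq hhi (mul_comm _ _)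
      have h2 : 0 ≤ ε / 4 * ∑ l, Y f (κ l) - ε / 4 * ((1 + ε) * d / S) := by
        have := mul_le_mul_of_nonneg_left h1.le hθ0
        linarith
      have h3 : 1 ≤ U f κ := Real.one_le_exp h2
      have h4 : 0 ≤ L f κ := (Real.exp_pos _).le
      linarith
    · have hlo' := not_le.mp hlo
      have h1 : ∑ l, Y f (κ l) < (1 - ε) * d / S := by
        have e : (1 - ε) * d / S = (1 - ε) * v f / (S * v f / d) := by field_simp
        rw [e, lt_div_iff₀ hc]
        exact lt_of_eq_of_lt (mul_comm _ _) hlo'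
      have h2 : 0 ≤ -(ε / 2) * ∑ l, Y f (κ l) - -(ε / 2 * ((1 - ε) * d / S)) := by
        have := mul_le_mul_of_nonneg_left h1.le hlam0
        linarith
      have h3 : 1 ≤ L f κ := Real.one_le_exp h2
      have h4 : 0 ≤ U f κ := (Real.exp_pos _).le
      linarith
  have hπ : ∑ κ : Fin d → K, ∏ l, P (κ l) = 1 := by
    rw [← Fintype.sum_pow, hP1, one_pow]
  have hπ0 : ∀ κ : Fin d → K, 0 ≤ ∏ l, P (κ l) := fun κ =>
    Finset.prod_nonneg (fun l _ => hP0 _)
  have key : (1 : ℝ) ≤ ∑ f ∈ Fpos, (∑ κ : Fin d → K, (∏ l, P (κ l)) * U f κ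
      + ∑ κ : Fin d → K, (∏ l, P (κ l)) * L f κ) := by
    calc (1 : ℝ) = ∑ κ : Fin d → K, ∏ l, P (κ l) := hπ.symm
      _ ≤ ∑ κ : Fin d → K, (∏ l, P (κ l)) * ∑ f ∈ Fpos, (U f κ + L f κ) :=
          Finset.sum_le_sum (fun κ _ => le_mul_of_one_le_right (hπ0 κ) (hbad κ))
      _ = _ := by
          simp only [Finset.mul_sum, mul_add]
          rw [Finset.sum_comm]
          simp only [Finset.sum_add_distrib]
  -- the common bound for both tails
  set E : ℝ := Real.exp (-(ε ^ 2 * d / (8 * S))) with hE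
  have hdS : 0 ≤ (d : ℝ) / S := div_nonneg hdpos.le hSpos.le
  have hU : ∀ f ∈ Fpos, ∑ κ : Fin d → K, (∏ l, P (κ l)) * U f κ ≤ E := by
    intro f hf
    have hvf : 0 < v f := by simpa [hFpos] using hf
    have h := tail_le P (Y f) hP0 hP1 (hY0 f) (hY1 f) (ε / 4) (ε / 4 * ((1 + ε) * d / S)) d
    rw [hmean f hvf] at h
    refine le_trans h (Real.exp_le_exp.mpr ?_)
    have e1 : (d : ℝ) * ((Real.exp (ε / 4) - 1) * (1 / S)) - ε / 4 * ((1 + ε) * d / S)
        = d / S * (Real.exp (ε / 4) - 1 - ε / 4 * (1 + ε)) := by field_simp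
    have e2 : -(ε ^ 2 * d / (8 * S)) = d / S * (-(ε ^ 2 / 8)) := by field_simp
    rw [e1, e2]
    exact mul_le_mul_of_nonneg_left (exp_upper_aux ε hε hε1) hdS
  have hL : ∀ f ∈ Fpos, ∑ κ : Fin d → K, (∏ l, P (κ l)) * L f κ ≤ E := by
    intro f hf
    have hvf : 0 < v f := by simpa [hFpos] using hf
    have h := tail_le P (Y f) hP0 hP1 (hY0 f) (hY1 f) (-(ε / 2)) (-(ε / 2 * ((1 - ε) * d / S))) d
    rw [hmean f hvf] at h
    refine le_trans h (Real.exp_le_exp.mpr ?_)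
    have e1 : (d : ℝ) * ((Real.exp (-(ε / 2)) - 1) * (1 / S)) - -(ε / 2 * ((1 - ε) * d / S))
        = d / S * (Real.exp (-(ε / 2)) - 1 + ε / 2 * (1 - ε)) := by
      field_simp
      ring
    have e2 : -(ε ^ 2 * d / (8 * S)) = d / S * (-(ε ^ 2 / 8)) := by field_simp
    rw [e1, e2]
    have h4 : Real.exp (-(ε / 2)) - 1 + ε / 2 * (1 - ε) ≤ -(ε ^ 2 / 8) := by
      have := exp_lower_aux ε hε
      nlinarith [sq_nonneg ε]
    exact mul_le_mul_of_nonneg_left h4 hdS
  have hEle : E ≤ (2 * (Fintype.card F : ℝ) + 1)⁻¹ := by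
    have hpos : (0 : ℝ) < 2 * (Fintype.card F : ℝ) + 1 := by linarith
    have h1 : Real.log (2 * (Fintype.card F : ℝ) + 1) ≤ ε ^ 2 * d / (8 * S) := by
      rw [le_div_iff₀ (by positivity)]
      linarith
    calc E ≤ Real.exp (-Real.log (2 * (Fintype.card F : ℝ) + 1)) :=
          Real.exp_le_exp.mpr (by linarith)
      _ = (2 * (Fintype.card F : ℝ) + 1)⁻¹ := by rw [Real.exp_neg, Real.exp_log hpos]
  have hE0 : 0 ≤ E := (Real.exp_pos _).le
  have hcardpos : ((Fpos.card : ℕ) : ℝ) ≤ (Fintype.card F : ℝ) := by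
    exact_mod_cast Finset.card_le_univ Fpos
  have hfin : (1 : ℝ) ≤ (Fintype.card F : ℝ) * (2 * E) := by
    calc (1 : ℝ) ≤ ∑ f ∈ Fpos, (∑ κ : Fin d → K, (∏ l, P (κ l)) * U f κ
          + ∑ κ : Fin d → K, (∏ l, P (κ l)) * L f κ) := key
      _ ≤ ∑ _f ∈ Fpos, (2 * E) :=
          Finset.sum_le_sum (fun f hf => by linarith [hU f hf, hL f hf])
      _ = (Fpos.card : ℝ) * (2 * E) := by rw [Finset.sum_const, nsmul_eq_mul]
      _ ≤ (Fintype.card F : ℝ) * (2 * E) :=
          mul_le_mul_of_nonneg_right hcardpos (by linarith)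
  have hpos : (0 : ℝ) < 2 * (Fintype.card F : ℝ) + 1 := by linarith
  have hlt : (Fintype.card F : ℝ) * (2 * (2 * (Fintype.card F : ℝ) + 1)⁻¹) < 1 := by
    rw [← mul_assoc, ← div_eq_mul_inv, div_lt_one hpos]
    linarith
  have hle : (Fintype.card F : ℝ) * (2 * E)
      ≤ (Fintype.card F : ℝ) * (2 * (2 * (Fintype.card F : ℝ) + 1)⁻¹) :=
    mul_le_mul_of_nonneg_left (by linarith) (by linarith)
  linarith

end Vale.Agent.Lib.P249.H96Sampling
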